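import Crest.Agent.X212.Eqv71.Hil
import Crest.Agent.X212.Spn45.Lift
import Crest.Agent.X212.Cyf70.Kp
import Crest.Agent.X212.Eqv71.Cyl
import Crest.Agent.X212.Dec35.Nat
import Crest.Agent.X212.Cay24.Main

-- ▼ part X212/Kp63/Rf
section

/-!
# Row 212, KP-IV (helper63): the reflection of time on the cylinder and the gradient engine
-/

set_option autoImplicit false
set_option linter.unusedSectionVars false
noncomputable section
open scoped Manifold ContDiff Topology InnerProductSpace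
open MeasureTheory Set Function Filter

namespace Crest.Agent.X212.Kp63
open An Wz78 Cyf70 Dgr80 Nd18 Mp86 Cyc79
open Sob92 (dv)
open Wrd81 (wd)
open ContinuousLinearMap (adjoint)

variable {E3 : Type} [NormedAddCommGroup E3] [NormedSpace ℝ E3] [FiniteDimensional ℝ E3]
  [MeasurableSpace E3] [BorelSpace E3]
  {H3 : Type} [TopologicalSpace H3] {I3 : ModelWithCorners ℝ E3 H3} [I3.Boundaryless]
  {Y : Type} [TopologicalSpace Y] [ChartedSpace H3 Y] [IsManifold I3 ∞ Y] [T2Space Y]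
  [MeasurableSpace Y] [BorelSpace Y] [SecondCountableTopology Y] [CompactSpace Y]
  {κ : Type} [Fintype κ] {lam : Type} [Fintype lam]

/-- the reflection of time -/
abbrev rf (c : ℝ) (x : Y × ℝ) : Y × ℝ := (x.1, c - x.2)

theorem rf_rf (c : ℝ) (x : Y × ℝ) : rf c (rf c x) = x := Prod.ext rfl (sub_sub_cancel _ _)

/-- the sign of a frame field under the reflection -/
def sn : Option κ → ℝ
  | none => -1
  | some _ => 1

section calculus
variable {N : Type} [NormedAddCommGroup N] [NormedSpace ℝ N] {e : κ → Π y : Y, TangentSpace I3 y}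

theorem sm_rf {w : Y × ℝ → N} (hw : Sm (IC I3) w) (c : ℝ) : Sm (IC I3) fun x => w (rf c x) :=
  hw.comp (contMDiff_fst.prodMk (contMDiff_const.sub contMDiff_snd))

theorem dv_rf {w : Y × ℝ → N} (hw : Sm (IC I3) w) (c : ℝ) (a : Option κ) (x : Y × ℝ) :
    dv (IC I3) (ce e a) (fun x => w (rf c x)) x = sn a • dv (IC I3) (ce e a) w (rf c x) := by
  have h1 := sm_rf hw c
  cases a with
  | none =>
    rw [dv_none (h1.mdifferentiableAt (by simp)), dv_none (hw.mdifferentiableAt (by simp)), sn,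
      neg_one_smul]
    exact deriv_comp_const_sub (fun s => w (x.1, s)) c x.2
  | some a =>
    rw [dv_some (h1.mdifferentiableAt (by simp)), dv_some (hw.mdifferentiableAt (by simp)), sn,
      one_smul]

end calculus

section engine
variable {V U : Type} [NormedAddCommGroup V] [InnerProductSpace ℝ V] [CompleteSpace V]
  [NormedAddCommGroup U] [InnerProductSpace ℝ U] [CompleteSpace U]
  {F : Fr I3 Y κ} {A : Option κ → Y × ℝ → CL V V} {R : CL V V} {c : ℝ} {r : CL U (CL V V)}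
  {s u l : Y × ℝ → V} {x : Y × ℝ}

/-- the reflected section -/
def tr (R : CL V V) (c : ℝ) (u : Y × ℝ → V) (x : Y × ℝ) : V := R (u (rf c x))

theorem sm_tr (hu : Sm (IC I3) u) : Sm (IC I3) (tr R c u) := R.contMDiff.comp (sm_rf hu c)

variable (I3 A R) in
/-- invariant connections in temporal gauge with a commuting symmetric involution -/
structure Rv : Prop where
  mc : Mc (IC I3) A
  tm : ∀ x, A none x = 0
  inv : ∀ a c x, A a (rf c x) = A a x
  cm : ∀ a x v, R (A a x v) = A a x (R v)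
  sym : ∀ v w, ⟪R v, w⟫_ℝ = ⟪v, R w⟫_ℝ
  idem : ∀ v, R (R v) = v

variable (R c) in
/-- even sections -/
def Ev (u : Y × ℝ → V) : Prop := tr R c u = u

variable (R c) in
/-- even letters -/
def LE : SL (Y × ℝ) V → Prop
  | .op T => ∀ ⦃u⦄, Ev R c u → Ev R c (fun x => T x (u x)) ∧ Ev R c fun x => adjoint (T x) (u x)
  | .G => True

theorem Ev.smul (h : Ev R c u) {f : Y × ℝ → ℝ} (hf : ∀ x, f (rf c x) = f x) :
    Ev R c fun x => f x • u x := funext fun x => by
  rw [tr, map_smul, hf]; exact congrArg _ (congrFun h x)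

theorem le_mul {f : Y × ℝ → ℝ} (hf : ∀ x, f (rf c x) = f x) :
    LE R c (.op fun x => f x • (1 : CL V V)) := fun _ h =>
  ⟨h.smul hf, by simp only [Eqv71.adj_smul_one]; exact h.smul hf⟩

theorem Ev.op (h : Ev 1 c u) {T : Y × ℝ → CL V V} (hT : ∀ x, T (rf c x) = T x) :
    Ev 1 c fun x => T x (u x) := funext fun x => by
  rw [tr, hT]; exact congrArg (T x) (congrFun h x)

theorem le_zl (t : SL Y V) : LE 1 c (Spn45.zl t) := by
  cases t
  exacts [fun _ h => ⟨h.op fun _ => rfl, h.op fun _ => rfl⟩, trivial]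

namespace Rv
variable (h : Rv I3 A R)
include h

theorem tr_tr : tr R c (tr R c u) = u := funext fun x => by rw [tr, tr, h.idem, rf_rf]

theorem nab_tr (t : ℝ) (hu : Sm (IC I3) u) (a : Option κ) :
    nab (IC I3) (cyl F).e A a (tr (t • R) c u) =
      tr ((sn a * t) • R) c (nab (IC I3) (cyl F).e A a u) := funext fun x => by
  have e : dv (IC I3) ((cyl F).e a) (tr (t • R) c u) x = _ :=
    (Sob92.dv_clm (t • R) ((sm_rf hu c).mdifferentiableAt (by simp))).trans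
      (congrArg _ (dv_rf hu c a x))
  rw [nab, e]
  simp only [tr, nab, smul_apply, map_smul, map_add, h.cm, h.inv, smul_smul]
  cases a
  · simp [h.tm, mul_comm]; rfl
  · simp [sn]; rfl

theorem lap_tr (hu : Sm (IC I3) u) (x : Y × ℝ) : lap (IC I3) (cyl F).e (cyl F).dv A (tr R c u) x =
    tr R c (lap (IC I3) (cyl F).e (cyl F).dv A u) x := by
  have e := fun a => h.nab_tr (F := F) (c := c) 1 hu a
  simp only [one_smul] at e
  simp only [lap, e, fun a t => h.nab_tr (F := F) (c := c) t (sm_nab (F := cyl F) h.mc.sm a hu) a]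
  simp only [tr, lap, map_neg, map_sum, map_add, map_smul, smul_apply]
  refine congrArg Neg.neg (Finset.sum_congr rfl fun a _ => ?_)
  cases a <;> simp [sn, cyl, Cyf70.cd]

theorem isRes_tr (k : (cyl F).IsRes A s u) : (cyl F).IsRes A (tr R c s) (tr R c u) :=
  ⟨sm_tr k.1, let ⟨C, b⟩ := k.2.1; ⟨‖R‖ * C, fun x => R.le_opNorm_of_le (b _)⟩, fun x => by
    rw [h.lap_tr k.1, tr, tr, tr, ← map_add, k.2.2]⟩

theorem res_tr : (cyl F).res A (tr R c s) = tr R c ((cyl F).res A s) := by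
  rcases res_cases (cyl F) A s with k | k
  · exact res_eq (Spn45.bumps_cyl F) h.mc (h.isRes_tr k)
  · rcases res_cases (cyl F) A (tr R c s) with k' | k'
    · exact (k.1 ⟨_, h.tr_tr (c := c) (u := s) ▸ h.isRes_tr k'⟩).elim
    · rw [k.2, k'.2]; exact funext fun _ => (map_zero R).symm

theorem res (k : Ev R c s) : Ev R c ((cyl F).res A s) := h.res_tr.symm.trans (congrArg _ k)

theorem wd {w : List (SL (Y × ℝ) V)} (hw : ∀ t ∈ w, LE R c t) (k : Ev R c s) :
    Ev R c (wd (sl (cyl F) A) s w) := by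
  induction w with
  | nil => exact k
  | cons t w ih =>
    have := ih fun t ht => hw t (.tail _ ht)
    have e := hw t (.head _)
    cases t
    exacts [(e this).1, h.res this]

theorem bk {w : List (SL (Y × ℝ) V)} (hw : ∀ t ∈ w, LE R c t) (k : Ev R c l) :
    Ev R c (bk (cyl F) A w l) := by
  induction w generalizing l with
  | nil => exact k
  | cons t w ih =>
    have e := hw t (.head _)
    refine ih (fun t ht => hw t (.tail _ ht)) ?_
    cases t
    exacts [(e k).2, h.res k]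

variable (hr : ∀ ξ v, R (r ξ v) = r ξ (R v))
include hr

theorem tp_tp (v w : V) : tp r (R v) (R w) = tp r v w := ext_inner_right ℝ fun ξ => by
  rw [inner_tp, inner_tp, ← hr, h.sym, h.idem]

variable (hx : rf c x = x)
include hx

theorem tp_nab (hu : Ev R c u) (hl : Ev R c l) (sl : Sm (IC I3) l) :
    tp r (u x) (nab (IC I3) (cyl F).e A none l x) = 0 := by
  have e := congrFun (h.nab_tr (F := F) (c := c) 1 sl none) x
  have e' := congrFun hu x
  rw [one_smul, show tr R c l = l from hl] at e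
  rw [tr, hx] at e e'
  have := h.tp_tp hr (u x) (nab (IC I3) (cyl F).e A none l x)
  rw [sn, mul_one, smul_apply, neg_one_smul, ← neg_eq_iff_eq_neg] at e
  rw [e', ← e, tp, tp, map_neg, neg_eq_iff_add_eq_zero, ← two_smul ℝ] at this
  exact (smul_eq_zero.1 this).resolve_left two_ne_zero

theorem gc {w : List (SL (Y × ℝ) V)} (hw : ∀ t ∈ w, LE R c t) (hs : Ev R c s) (hl : Ev R c l) :
    gc (cyl F) A r s w l x none = 0 := by
  induction w generalizing l with
  | nil => rfl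
  | cons t w ih =>
    have e := hw t (.head _)
    have hw' := fun t ht => hw t (.tail _ ht)
    cases t with
    | op T => exact ih hw' (e hl).2
    | G =>
      have a := h.res (F := F) (h.wd (F := F) hw' hs)
      have b := h.res (F := F) hl
      simp only [Dgr80.gc, PiLp.sub_apply, ih hw' b, cur, h.tp_nab hr hx a b (sm_res _ _ _),
        h.tp_nab hr hx b a (sm_res _ _ _), add_zero, sub_zero]

end Rv

theorem rv_one (hA : Mc (IC I3) A) (h0 : ∀ x, A none x = 0) (hi : ∀ a c x, A a (rf c x) = A a x) :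
    Rv I3 A 1 := ⟨hA, h0, hi, fun _ _ _ => rfl, fun _ _ => rfl, fun _ => rfl⟩

end engine

/-! ### the reflection on `L²` -/

section hil
variable {k : Type} [Fintype k] [DecidableEq k] (F : Fr I3 Y κ) (c : ℝ)

/-- the reflection as a homeomorphism -/
def rh : Y × ℝ ≃ₜ Y × ℝ := (Homeomorph.refl Y).prodCongr (Homeomorph.subLeft c)

theorem int_rf (f : Y × ℝ → ℝ) : ∫ x, f (rf c x) ∂(cyl F).μ = ∫ x, f x ∂(cyl F).μ := by
  have := F.fin
  exact ((MeasurePreserving.id F.μ).prod (Measure.measurePreserving_sub_left volume c)).integral_comp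
    (rh c).measurableEmbedding f

/-- the reflection of test sections -/
def rs : Sec (IC I3) (triv (Y × ℝ) (Eu k)) →ₗ[ℝ] Sec (IC I3) (triv (Y × ℝ) (Eu k)) where
  toFun w := ⟨tr 1 c w.1, sm_tr w.2.1, w.2.2.1.comp_homeomorph (rh c), fun _ => rfl⟩
  map_add' _ _ := rfl
  map_smul' _ _ := rfl

theorem exists_R : ∃ R : KK (cyl F).toPre k →L[ℝ] KK (cyl F).toPre k,
    adjoint R = R ∧ (∀ v, R (R v) = v) ∧ ∀ w, R ((cyl F).toH 0 _ w) = (cyl F).toH 0 _ (rs c w) := by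
  obtain ⟨R, h, -⟩ := Pre.exists_ext (F := (cyl F).toPre) (k := 0) ((cyl F).toH 0 _ ∘ₗ rs (k := k) c)
    zero_le_one fun w => by
      rw [LinearMap.comp_apply, Pre.norm_toH, one_mul, Pre.nrm, Pre.nrm]
      exact (congrArg _ (int_rf F c fun x => ⟪w.1 x, w.1 x⟫_ℝ)).le
  refine ⟨R, ((ContinuousLinearMap.eq_adjoint_iff _ _).2 fun a b => ?_).symm, fun v => ?_, h⟩
  · refine ((cyl F).dense_toH 0 _).induction_on₂ (p := fun a b => ⟪R a, b⟫_ℝ = ⟪a, R b⟫_ℝ)
      (isClosed_eq (by fun_prop) (by fun_prop)) (fun a b => ?_) a b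
    rw [h, h, LinearMap.comp_apply, LinearMap.comp_apply, Pre.inner_toH, Pre.inner_toH]
    refine (int_rf F c fun x => ⟪a.1 (rf c x), b.1 x⟫_ℝ).symm.trans ?_
    simp only [rf_rf]; rfl
  · refine congrArg (fun L : _ →L[ℝ] _ => L v) (Pre.clm_ext (A := R ∘L R) (B := 1) fun w => ?_)
    rw [ContinuousLinearMap.comp_apply, h, LinearMap.comp_apply, h, LinearMap.comp_apply]
    exact congrArg _ (Subtype.ext (funext fun x => congrArg w.1 (rf_rf c x)))

variable {F c}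

theorem ev_fld {R : KK (cyl F).toPre k →L[ℝ] KK (cyl F).toPre k} (h1 : adjoint R = R)
    (h2 : ∀ w, R ((cyl F).toH 0 _ w) = (cyl F).toH 0 _ (rs c w))
    {T : (Y × ℝ → Eu k) → Y × ℝ → Eu k} (hT : ∀ u x, T (tr 1 c u) (rf c x) = T u x) :
    Ev (fb R) c (fld (cyl F).toPre T) := by
  rcases Eqv71.fld_cases (cyl F).toPre T with h | h
  · refine Eqv71.isFld_unique ⟨sm_tr h.1, fun u z => ?_⟩ h
    rw [tr, ← h1, ct_fb, h2, h.2]
    exact hT _ _
  · rw [h.2]; exact funext fun _ => map_zero _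

end hil

end Crest.Agent.X212.Kp63
end
end

-- ▼ part X212/Kp63/Iv
section

/-!
# Row 212, KP-IV (helper63): the gradient has no `dt`-component at invariant configurations
-/

set_option autoImplicit false
set_option linter.unusedSectionVars false
noncomputable section
open scoped Manifold ContDiff Topology InnerProductSpace
open MeasureTheory Set Function Filter

namespace Crest.Agent.X212.Kp63
open An Wz78 Cyf70 Dgr80 Nd18 Mp86 Cyc79
open ContinuousLinearMap (adjoint)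

variable {E3 : Type} [NormedAddCommGroup E3] [NormedSpace ℝ E3] [FiniteDimensional ℝ E3]
  [MeasurableSpace E3] [BorelSpace E3]
  {H3 : Type} [TopologicalSpace H3] {I3 : ModelWithCorners ℝ E3 H3} [I3.Boundaryless]
  {Y : Type} [TopologicalSpace Y] [ChartedSpace H3 Y] [IsManifold I3 ∞ Y] [T2Space Y]
  [MeasurableSpace Y] [BorelSpace Y] [SecondCountableTopology Y] [CompactSpace Y]
  {κ : Type} [Fintype κ] {lam : Type} [Fintype lam]
  {D : YD I3 Y κ lam} {β : YC Y κ lam} {c : ℝ} {x : Y × ℝ}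

theorem okz (hD : D.OK) : Eqv71.OKZ D := ⟨hD, Dec35.tame_Z hD⟩

theorem le_la {V : Type} [NormedAddCommGroup V] [InnerProductSpace ℝ V] [CompleteSpace V]
    (R : CL V V) (w : List (La Y)) : ∀ t ∈ (w.map D.nk.la).map (laV V), LE R c t := by
  simp only [List.forall_mem_map]
  intro t _
  cases t
  exacts [le_mul fun x => by rw [Spn45.nk_ext], trivial]

theorem le_laS (w : List (La Y)) : ∀ t ∈ (w.map D.nk.la).map (laS (cy β)), LE 1 c t := by
  rw [show laS (cy β) = laV _ from funext fun t => by cases t <;> rfl]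
  exact le_la 1 w

theorem le_ltS (w : List (YL Y)) : ∀ t ∈ (w.map D.nk.lt).map (ltS D.Z (cy β)), LE 1 c t := by
  rw [Spn45.lt_zl]
  exact List.forall_mem_map.2 fun t _ => le_zl t

variable (β c x) in
/-- even seeds -/
structure SeE (S : Sed (Y × ℝ) (Option κ) lam 0) : Prop where
  s : Ev 1 c (S.s (cy β))
  A : ∀ l, Ev 1 c l → S.sA (cy β) l x none = 0

variable (β c x) in
/-- even densities -/
def DnE (d : Den (Y × ℝ) (Option κ) lam 0) : Prop :=
  ∀ f : Y × ℝ → ℝ, (∀ y, f (rf c y) = f y) → d.gA (cy β) f x none = 0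

theorem SeE.den {S S' : Sed (Y × ℝ) (Option κ) lam 0} (h : SeE β c x S) (h' : SeE β c x S') :
    DnE β c x (Den.sed S S') := fun _ hf =>
  (congrArg₂ (· + ·) (h.A _ (h'.s.smul hf)) (h'.A _ (h.s.smul hf))).trans (add_zero _)

theorem DnE.cut {d : Den (Y × ℝ) (Option κ) lam 0} (h : DnE β c x d) : DnE β c x (dcut D.nk.χ d) :=
  fun _ hf => h _ fun y => by rw [hf, Spn45.nk_χ, Spn45.nk_χ]

variable (hβ : D.Adm β)
include hβ

theorem rv_W : Rv I3 (cy β).W 1 :=
  rv_one (Eqv71.mc_W hβ.adm.conn) (fun x => hβ.tmp x.1) fun _ _ _ => rfl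

theorem rv_ad : Rv I3 ((cy β).m.adW (cy β).W) 1 :=
  rv_one (Eqv71.mc_adW hβ.adm.conn)
    (fun x => (congrArg adcL (hβ.tmp x.1)).trans (map_zero _)) fun _ _ _ => rfl

variable (hx : rf c x = x)
include hx

theorem SeE.wd {S : Sed (Y × ℝ) (Option κ) lam 0} (h : SeE β c x S) (w : List (La Y)) :
    SeE β c x (S.wd D.Z (w.map D.nk.la)) :=
  ⟨(congrArg (Ev 1 c) (la_eq D.Z (cy β) _ _)).mpr ((rv_ad hβ).wd (le_laS w) h.s), fun _ hl =>
    (congrArg₂ (· + ·) ((rv_ad hβ).gc (fun _ _ => rfl) hx (le_laS w) h.s hl)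
      (h.A _ ((rv_ad hβ).bk (le_laS w) hl))).trans (add_zero _)⟩

theorem seE_cy (d : Cy Y) : SeE β c x ((D.nk.cyc d).sed D.Z) := by
  obtain ⟨R, h1, h2, h3⟩ := exists_R (k := Fin (cy β).m.N × Fin (cy β).m.N) D.F c
  have a := rv_ad hβ
  have h : Rv I3 (AA D.Z (cy β)) (fb R) :=
    ⟨⟨sm_aA a.mc.sm, fun b x => skew_amp (a.mc.sk b x)⟩,
      fun x => (congrArg (amp _) (a.tm x)).trans (map_zero _), fun _ _ _ => rfl,
      fun _ _ _ => fb_amp _ _ _, fun v w => by rw [inner_fb, h1], fun v => PiLp.ext fun i => h2 _⟩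
  have hr : ∀ ξ v, fb R (rr D.Z (cy β) ξ v) = rr D.Z (cy β) ξ (fb R v) := fun _ _ => fb_amp _ _ _
  have b : ∀ f f' : Y → ℝ, Ev (fb R) c (bf D.Z (cy β) (D.nk.ext f) (D.nk.ext f')) := fun f f' =>
    ev_fld h1 h3 fun u z => by
      have := congrFun (a.res_tr (F := D.F) (c := c)
        (s := fun y => f' y.1 • (cy β).m.pg y (u y))) (rf c z)
      rw [tr, rf_rf] at this
      rw [Spn45.nk_ext, Spn45.nk_ext]
      exact congrArg (f z.1 • ·) this
  have e : ∀ (w : List (La Y)) (f f' : Y → ℝ), ∀ t ∈ (w.map D.nk.la ++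
      xw (D.nk.ext f) (D.nk.ext f')).map (laV (Vc D.Z (cy β))), LE (fb R) c t := fun w f f' => by
    have := le_la (V := Vc D.Z (cy β)) (D := D) (c := c) (fb R) (w ++ xw f f')
    rwa [List.map_append (f := D.nk.la)] at this
  have ad : ∀ {l u}, Ev 1 c l → Ev (fb R) c u → Ev (fb R) c (adl D.Z (cy β) l u) :=
    fun hl hu => funext fun z => (hr _ _).trans
      (congrArg₂ (fun s t => rr D.Z (cy β) ((cy β).m.pg z s) t) (congrFun hl z) (congrFun hu z))
  have g : ∀ (w w' : List (La Y)) l, Ev 1 c l → gh D.Z (cy β) (D.nk.ext d.f) (D.nk.ext d.f')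
      (w.map D.nk.la) (w'.map D.nk.la) (adl D.Z (cy β) l) x none = 0 := fun w w' l hl =>
    (congrArg₂ (· + ·) (h.gc hr hx (e w _ _) (b _ _) (ad hl (h.wd (e w' _ _) (b _ _))))
      (h.gc hr hx (e [] _ _) (b _ _) (h.bk (e w _ _) (ad hl (h.wd (le_la _ w') (b _ _)))))).trans
      (add_zero _)
  refine ⟨funext fun z => congrArg ((cy β).m.pg z) ((h.tp_tp hr _ _).symm.trans (congrArg₂ _
    (congrFun (h.wd (e d.w _ _) (b _ _)) z) (congrFun (h.wd (e d.w' _ _) (b _ _)) z))),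
    fun l hl => (congrArg₂ (· - ·) (g _ _ l hl) (g _ _ l hl)).trans (sub_zero _)⟩

theorem dnE_sw {T : Pk (Y × ℝ) lam} (hT : ∀ y, pk (cy β) T (rf c y) = pk (cy β) T y)
    (u v : List (YL Y)) : DnE β c x (Den.sw D.Z T (u.map D.nk.lt) (v.map D.nk.lt)) := by
  have a := rv_W hβ
  have n : Ev 1 c (nP (cy β)) := rfl
  have b : ∀ u : List (YL Y), Ev 1 c (Dgr80.nw D.Z (cy β) (u.map D.nk.lt)) := fun u =>
    (nw_eq D.Z (cy β) _).symm ▸ a.wd (le_ltS u) n
  have g : ∀ (u : List (YL Y)) l, Ev 1 c l → swA D.Z (cy β) (u.map D.nk.lt) l x none = 0 :=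
    fun u l hl => a.gc (fun _ _ => rfl) hx (le_ltS u) n hl
  exact fun f hf => (congrArg₂ (· + ·) (g u _ (((b v).op hT).smul hf))
    (g v _ (((b u).op hT).smul hf))).trans (add_zero _)

theorem dnE_dg (N : ND Y lam) (j : N.J) : DnE β c x ((N.dg D.nk).d j) := by
  rcases j with j | j | j
  · show DnE β c x (D.nk.den (N.d0 j))
    cases N.d0 j with
    | sw u v => exact (dnE_sw hβ hx (fun _ => rfl) u v).cut
    | cy d w d' w' => exact (((seE_cy hβ hx d).wd hβ hx w).den ((seE_cy hβ hx d').wd hβ hx w')).cut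
  · exact (dnE_sw hβ hx (fun _ => by rw [Spn45.nk_ext]; rfl) _ _).cut
  · exact (dnE_sw hβ hx (fun _ => by rw [Spn45.nk_ext]; rfl) _ _).cut

omit hx

variable (hD : D.OK) {N : ND Y lam} (hN : N.OK D)
include hD hN

theorem co_cy (j : N.J) (t : ℝ) : (N.dg D.nk).co D.Z (cy β) j t = (N.dg D.nk).co D.Z (cy β) j 0 := by
  have h := (okz hD).Iv_cy hN (Eqv71.ad0 hβ.adm) t
  have e : (N.dg D.nk).Iv D.Z (cy β) t = (N.dg D.nk).Iv D.Z (cy β) 0 := funext fun j => by
    rcases j with j | j | j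
    exacts [congrFun (congrArg Prod.fst h) j, congrArg Complex.re (congrFun (congrArg Prod.snd h) j),
      congrArg Complex.im (congrFun (congrArg Prod.snd h) j)]
  rw [DG.co, DG.co, e]
  rfl

theorem β_cy (j : N.J) (t : ℝ) : (N.dg D.nk).β D.Z (cy β) j t = (N.dg D.nk).β D.Z (cy β) j 0 := by
  have := Eqv71.cv_shift (δ := N.δ) (s := t) (c := (N.dg D.nk).co D.Z (cy β) j)
    (fun s => (co_cy hβ hD hN j (s + t)).trans (co_cy hβ hD hN j s).symm) 0
  rwa [zero_add] at this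

/-- the `dt`-component of the gradient vanishes at `cy β` -/
theorem gA_none (x : Y × ℝ) : (N.dg D.nk).gA D.Z (cy β) x none = 0 := by
  rw [DG.gA, WithLp.ofLp_sum, Finset.sum_apply]
  exact Finset.sum_eq_zero fun j _ =>
    dnE_dg (c := x.2 + x.2) hβ (Prod.ext rfl (add_sub_cancel_right _ _)) N j _ fun y =>
    (β_cy hβ hD hN j _).trans (β_cy hβ hD hN j _).symm

omit hβ hD hN

open Map77 in
theorem fa_pC (m : Md (Y × ℝ) (Option κ) lam) (x : Y × ℝ) (α : Fm (Option κ) (HS (Fin m.N)))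
    (φ : Eu (Fin m.N)) : fa ((Dec35.mbd D.B m).pC x (i1 _ _ α + i2 _ _ φ)) none = m.pg x (α none) := by
  rw [f2_ps, map_add, f2_i1, f2_i2, add_zero]
  refine (Map77.idx_apply _ _ _ _).trans ?_
  simp [Fintype.sum_option, YD.B, cP]

theorem fa_gz (a : Dec35.Cz β) (x : Y × ℝ) : Map77.fa (gz N D β a x) none =
    (cy β).m.pg x ((N.dg D.nk).gA D.Z (Dec35.cf (cy β) a) x none) := fa_pC _ _ _ _

/-- **KP-IV** -/
theorem ivStmt : IvStmt I3 Y κ lam := fun N D β h b hb tb h0 x => by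
  have a : D.Adm (vr β (fun y => Map77.fa (b y)) fun y => Map77.fp (b y)) :=
    ⟨Dec35.cf_adm h.adm.adm (sm_fst hb) tb, fun y => by
      show β.W none y + opL (κ := Fin β.m.N) (Map77.fa (b y) none) = 0
      rw [h.adm.tmp, h0, zero_add]; exact map_zero _⟩
  exact (fa_gz _ x).trans ((congrArg _ (gA_none a h.ok h.nd x)).trans (map_zero _))

end Crest.Agent.X212.Kp63
end
end

-- ▼ part X212/Kp63/Nat
section

/-!
# Row 212, KP-NAT (helper63): translation invariance of the gradient and the gauge directions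
-/

set_option autoImplicit false
set_option linter.unusedSectionVars false
noncomputable section
open scoped Manifold ContDiff Topology InnerProductSpace
open MeasureTheory Set Function Filter Real Asymptotics

namespace Crest.Agent.X212.Kp63
open An Map77 Sob92 Nd18 Dec35 Cyf70
open Eqv71 (trZ nkR_shift nkR_refl dgk Ad0 ad0)
open Tmp64 (Eq0)

theorem p2_wd {M ι k : Type} [TopologicalSpace M] [MeasurableSpace M] [Fintype ι] [Fintype k]
    [DecidableEq k] {d : Bd M ι k} (h : d.OK) (x : M) (a : ι) (α : Fm ι (HS k)) :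
    d.p2 x (wd2 _ (d.Px x) a (d.p1 x α)) =
      (2 : ℝ) • d.p2 x (WithLp.toLp 2 fun s => d.P s.1 a x • α s.2) := by
  refine ext_inner_right ℝ fun η => ?_
  have s := h.sd_p2 x η
  have e := h.prj1.symm x α (WithLp.toLp 2 fun c => d.p2 x η (a, c))
  rw [h.p1_fix x (α := WithLp.toLp 2 fun c => d.p2 x η (a, c)) (fun _ => h.g_p2 x η _) (s.pr' a),
    inner_fm, inner_fm] at e
  rw [real_inner_smul_left, h.prj2.symm, h.prj2.symm, inner_wd2 (h.vol x).pr s, e, inner_fm,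
    Fintype.sum_prod_type_right]
  refine congrArg _ (Finset.sum_congr rfl fun c _ => ?_)
  simp only [← s.pr a c, inner_sum, real_inner_smul_left, real_inner_smul_right, h.Ps a]

theorem kE_pC {M ι k : Type} [TopologicalSpace M] [MeasurableSpace M] [Fintype ι] [Fintype k]
    [DecidableEq k] {d : Bd M ι k} (h : d.OK) (x : M) (a : ι) (α : Fm ι (HS k)) (φ : Eu k) :
    (-(sm2 (ContinuousLinearMap.id ℝ _) ((4 : ℝ) • ContinuousLinearMap.id ℝ _) ∘L
      d.pE x ∘L d.σ a x ∘L d.pC x)) (d.pC x (i1 _ _ α + i2 _ _ φ)) =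
      i1 _ _ (-d.ρ a x (d.sp x φ)) +
        i2 _ _ ((-8 : ℝ) • d.p2 x (WithLp.toLp 2 fun s => d.P s.1 a x • α s.2)) := by
  refine ext2 ?_ ?_
  · simp only [neg_apply, ContinuousLinearMap.comp_apply, map_neg, f2_sm2, f2_ps, Bd.σ, σE, f2_pr2,
      s2_ps, map_add (s2 _ _), map_add (f2 _ _), s2_i1, s2_i2, f2_i1, f2_i2, zero_add, add_zero,
      h.sp.idem, h.mp, ContinuousLinearMap.id_apply]
  · simp only [neg_apply, ContinuousLinearMap.comp_apply, map_neg, s2_sm2, f2_ps, Bd.σ, σE, s2_pr2,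
      s2_ps, map_add (s2 _ _), map_add (f2 _ _), s2_i1, s2_i2, f2_i1, f2_i2, zero_add, add_zero,
      h.prj1.idem, p2_wd h, ContinuousLinearMap.id_apply, smul_apply, smul_smul, ← neg_smul]
    norm_num

theorem zero_of_O {V : Type} [NormedAddCommGroup V] [NormedSpace ℝ V] {w : V}
    (h : (fun ε : ℝ => ε • w) =O[𝓝[>] 0] fun ε => ε ^ 2) : w = 0 := by
  have := h.trans_isLittleO ((isLittleO_pow_id (𝕜 := ℝ) one_lt_two).mono nhdsWithin_le_nhds)
  refine norm_le_zero_iff.1 (le_of_forall_pos_le_add fun c hc => ?_)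
  obtain ⟨ε, h1, h2⟩ := ((isLittleO_iff.1 this hc).and self_mem_nhdsWithin).exists
  rw [norm_smul, mul_comm] at h1
  rw [zero_add]
  exact le_of_mul_le_mul_right h1 (norm_pos_iff.2 (ne_of_gt h2))

variable {E3 : Type} [NormedAddCommGroup E3] [NormedSpace ℝ E3] [FiniteDimensional ℝ E3]
  [MeasurableSpace E3] [BorelSpace E3]
  {H3 : Type} [TopologicalSpace H3] {I3 : ModelWithCorners ℝ E3 H3} [I3.Boundaryless]
  {Y : Type} [TopologicalSpace Y] [ChartedSpace H3 Y] [IsManifold I3 ∞ Y] [T2Space Y]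
  [MeasurableSpace Y] [BorelSpace Y] [SecondCountableTopology Y] [CompactSpace Y]
  {κ : Type} [Fintype κ] {lam : Type} [Fintype lam]
  {V : Type} [NormedAddCommGroup V] [InnerProductSpace ℝ V] [FiniteDimensional ℝ V]
  {D : YD I3 Y κ lam} {β : YC Y κ lam} {N : ND Y lam} {r : ℕ}
  {c c' : Cfg (Y × ℝ) (Option κ) lam r}

/-! ### naturality of the gradient -/

theorem grad_iso (hD : D.OK) (hN : N.OK D) (h : Ad0 c D.B D.G) (h' : Ad0 c' D.B D.G)
    {u : Y × ℝ → CL c.m.V c'.m.V} {ζ : Circle}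
    (e : CEq D.Z c c' univ id (Eqv71.PZ D) D.B.l u ζ) (x : Y × ℝ) :
    (N.dg D.nk).gA D.Z c' x = Eqv71.ridx (Eqv71.PZ D x) (Eqv71.cj (Eqv71.uz u ζ x))
      ((N.dg D.nk).gA D.Z c x) ∧
    (N.dg D.nk).gP D.Z c' x = Eqv71.uz u ζ x ((N.dg D.nk).gP D.Z c x) := by
  obtain ⟨_, hT⟩ := tame_Z hD
  have k := nkR_refl (O := univ) D.nk fun _ h => (h trivial).elim
  have g := (k.dgR (okz hD).kc hN hT hT (fun _ => k.sr hD.B _) (Eqv71.cr0_univ h h' e)).grad
    (okz hD).kc (dgk D.nk hD.B h hN) (dgk D.nk hD.B h' hN)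
  exact ⟨g.1 x trivial, g.2.rel x trivial⟩

theorem grad_sh (hD : D.OK) (hN : N.OK D) (h : Ad0 c D.B D.G) (s : ℝ) (x : Y × ℝ) :
    (N.dg D.nk).gA D.Z (sh s c) x = (N.dg D.nk).gA D.Z c (trZ s x) ∧
    (N.dg D.nk).gP D.Z (sh s c) x = (N.dg D.nk).gP D.Z c (trZ s x) := by
  obtain ⟨_, hT⟩ := tame_Z hD
  have h' := Eqv71.ad0_sh h s
  have g := ((nkR_shift D s).dgR ((okz hD).kc_sh s) hN hT hT ((okz hD).sr_sh hN s)
    ((okz hD).cr_sh h s)).grad ((okz hD).kc_sh s) (dgk D.nk hD.B h' hN) (dgk D.nk hD.B h hN)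
  have k := grad_iso hD hN h' h' (Eqv71.ceq_refl hD.B hD.G h' isOpen_univ) x
  exact ⟨k.1.trans (g.1 x trivial).symm, k.2.trans (g.2.rel x trivial).symm⟩

theorem pC_sh (x : Y × ℝ) (t : ℝ) : (mbd D.B (cy β).m).pC x = (mbd D.B (cy β).m).pC (x.1, t) :=
  congrArg (fun P => sm2 (idx P (β.m.pg x.1)) ((cy β).m.pp D.B x))
    (funext₂ fun a b => by cases a <;> cases b <;> rfl)

theorem ti (h : Hz N D β) : Ti N D β := fun a ha s x => by
  have k := grad_sh h.ok h.nd (ad0 (cf_adm h.adm.adm ha.cb.choose_spec.1 ha.tg)) s x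
  rw [gz, gz, pC_sh x (x.2 + s)]
  exact congrArg₂ (fun (p : Fm (Option κ) (cy β).m.A) (q : (cy β).m.V) =>
    (mbd D.B (cy β).m).pC (x.1, x.2 + s) (i1 _ _ p + i2 _ _ q)) k.1 k.2

/-- the perturbation `q1` is `kE` of the gradient -/
theorem te_eq (h : Hz N D β) (a : Cz β) (x : Y × ℝ) :
    te (N.q1 D.nk : Pt _ _ _ 0 0) (cy β) a x = kE D β x (gz N D β a x) := by
  have o : (mbd D.B (cy β).m).OK := Wz78.bdOf_ok h.ok.B h.adm.adm.ok
  have d : ∀ b, D.Z.D b D.nk.τ x = D.B.P b none x := fun b => by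
    classical
    have := Spn45.sum_dt (D := D) (Pi.single b (1 : ℝ)) x
    rw [Spn45.nk_τ]
    cases b <;> simpa [Pi.single_apply, YD.B, cP] using this
  refine Eq.trans (congrArg₂ (fun (p : (cy β).m.V) (q : Fm (Option κ × Option κ) (cy β).m.A) =>
    i1 _ _ p + i2 _ _ q) ?_ ?_) (kE_pC o x none _ _).symm
  · show -∑ b, D.Z.D b D.nk.τ x • _ = _
    rw [Spn45.nk_τ]
    exact congrArg Neg.neg (Spn45.sum_dt _ x)
  · exact congrArg (fun α => (-8 : ℝ) • (cy β).m.p2 D.B x α)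
      (fm_ext fun s => congrArg (· • _) (d s.1))

/-! ### families of variations -/

variable (D) in
/-- the norms without weight -/
abbrev n0 (k : ℕ) (w : Y × ℝ → V) : ℝ := nw D.Z.toPre k (fun x => (fun _ => (0 : ℝ)) x.2) w

theorem wd0 {d : ℝ} (hd : 0 ≤ d) : Wd D.Z.toPre (fun x => (fun _ => (0 : ℝ)) x.2) d 0 := by
  have e : ∀ a, D.Z.toPre.D a (fun _ : Y × ℝ => (0 : ℝ)) = fun _ => 0 := fun a =>
    funext fun x => Mp86.dv_const 0
  exact ⟨contMDiff_const, fun _ => le_rfl, ⟨0, fun _ => le_rfl⟩, fun a x => by simpa [e] using hd,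
    fun a => by rw [e]; exact ⟨contMDiff_const, fun k => CB_mono (CB_const k (0 : ℝ)) (by simp)⟩⟩

theorem pt_O (hD : D.OK) {l : Filter ℝ} {w : ℝ → Y × ℝ → V} {g : ℝ → ℝ} {k : ℕ} (hk : 4 ≤ k)
    (hw : ∀ᶠ ε in l, Fl D.Z.toPre (w ε)) (h : (fun ε => n0 D k (w ε)) =O[l] g) (x : Y × ℝ) :
    (fun ε => w ε x) =O[l] g := by
  obtain ⟨_, hT⟩ := tame_Z hD
  obtain ⟨K, h0, hK⟩ := Dw_le (V := V) hT 0 0
  refine (IsBigO.of_bound K (hw.mono fun ε h => ?_)).trans h
  have := hK _ 0 (wd0 le_rfl) _ h [] le_rfl x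
  rw [neg_zero, exp_zero, mul_one] at this
  exact this.trans (mul_le_mul_of_nonneg_left ((nw_mono hk _).trans (le_abs_self _)) h0)

theorem n0_O {l : Filter ℝ} {W : Type} [NormedAddCommGroup W] [InnerProductSpace ℝ W] {j : ℕ}
    {w : ℝ → Y × ℝ → W} {f : ℝ → ℝ} {C : ℝ} (hC : 0 ≤ C)
    (h : ∀ᶠ ε in l, n0 D j (w ε) ≤ C * f ε) : (fun ε => n0 D j (w ε)) =O[l] f :=
  .of_bound C (h.mono fun _ h => (Real.norm_of_nonneg (Sob92.nrm_nonneg _ _)).trans_le
    (h.trans (mul_le_mul_of_nonneg_left (le_abs_self _) hC)))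

theorem d0_smul (f : Cz β → Y × ℝ → V) (ε : ℝ) (v : Cz β) (x : Y × ℝ) :
    d0 f (ε • v) x = ε • d0 f v x := by
  have := deriv_comp_mul_left ε (fun s : ℝ => f (s • v) x) 0
  rw [mul_zero] at this
  simp only [d0, smul_smul, mul_comm _ ε, this]

variable (D) in
/-- a family `u ε = ε v + O(ε²)` -/
structure Fm2 (u : ℝ → Cz β) (v : Cz β) : Prop where
  hv : Vr D β v
  hu : ∀ᶠ ε in 𝓝[>] 0, Vr D β (u ε)
  O : (fun ε => n0 D 9 (u ε - ε • v)) =O[𝓝[>] 0] fun ε => ε ^ 2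

namespace Fm2
variable {u : ℝ → Cz β} {v : Cz β} (h : Fm2 D u v)
include h

theorem sm (ε : ℝ) : Vr D β (ε • v) := ⟨h.hv.fl.csmul ε, h.hv.tg.smul fun _ => ε⟩

theorem sub : ∀ᶠ ε in 𝓝[>] 0, Vr D β (u ε - ε • v) :=
  h.hu.mono fun ε k => ⟨k.fl.sub (h.sm ε).fl, k.tg.sub (h.sm ε).tg⟩

variable (hD : D.OK)
include hD

theorem O1 : (fun ε => n0 D 9 (u ε)) =O[𝓝[>] 0] fun ε => ε := by
  obtain ⟨_, hT⟩ := tame_Z hD
  have a : (fun ε : ℝ => |ε| * n0 D 9 v) =O[𝓝[>] 0] fun ε => ε :=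
    .of_bound |n0 D 9 v| (.of_forall fun ε => by simp [mul_comm])
  refine (n0_O zero_le_one (h.sub.mono fun ε k => ?_)).trans ((h.O.trans
    ((isLittleO_pow_id (𝕜 := ℝ) one_lt_two).mono nhdsWithin_le_nhds).isBigO).add a)
  have := nw_add hT (wd0 le_rfl) k.fl (h.sm ε).fl 9
  rwa [sub_add_cancel, nw_csmul hT (wd0 le_rfl) ε h.hv.fl, ← one_mul (_ + _)] at this

theorem tw {f : Cz β → Y × ℝ → V} (T : Tw D β f) (x : Y × ℝ) :
    (fun ε => f (u ε) x - f 0 x - ε • d0 f v x) =O[𝓝[>] 0] fun ε => ε ^ 2 := by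
  obtain ⟨d, hd, hb⟩ := T.bd
  obtain ⟨C, hC, r, hr, hb⟩ := hb 8 le_rfl 0
  have hb := hb (fun _ => 0) (wd0 hd.le)
  have t : ∀ᶠ ε in 𝓝[>] 0, n0 D 9 (u ε) ≤ r := ((h.O1 hD).trans_tendsto
    (tendsto_id.mono_left nhdsWithin_le_nhds)).eventually (ge_mem_nhds hr)
  have a1 := pt_O hD (k := 8) (by norm_num) (h.hu.mono fun ε k => (T.fl _ k).2.sub (T.fl _ k).1)
    ((n0_O hC ((h.hu.and t).mono fun ε k => (hb _ k.1).2 k.2)).trans ((h.O1 hD).pow 2)) x
  have a2 := pt_O hD (k := 8) (by norm_num) (h.sub.mono fun ε k => (T.fl _ k).1)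
    ((n0_O hC (h.sub.mono fun ε k => (hb _ k).1.trans (mul_le_mul_of_nonneg_left
      (nw_mono (by norm_num : 8 ≤ 9) _) hC))).trans h.O) x
  refine (a1.add a2).congr' (h.sub.mono fun ε k => ?_) .rfl
  have := congrFun (T.add _ _ k (h.sm ε)) x
  rw [sub_add_cancel, Pi.add_apply, d0_smul] at this
  simp only [Pi.sub_apply, this]
  abel

variable (hβ : D.Adm β)
include hβ

theorem lin (x : Y × ℝ) : (fun ε => lin D.B D.Z (cy β) (u ε) x - ε • lin D.B D.Z (cy β) v x)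
    =O[𝓝[>] 0] fun ε => ε ^ 2 := by
  obtain ⟨_, hT, hG⟩ := (bs_cyl hD hβ).good_lin
  obtain ⟨K, h0, hK⟩ := nw_opA hT 0 hG 8
  refine (pt_O hD (k := 8) (by norm_num) (h.sub.mono fun ε k => k.fl.opA hG)
    ((n0_O h0 (h.sub.mono fun ε k => hK _ 0 (wd0 le_rfl) _ k.fl)).trans h.O) x).congr'
    (h.sub.mono fun ε k => ?_) .rfl
  have e : ∀ a, D.Z.D a (u ε - ε • v) x = D.Z.D a (u ε) x - ε • D.Z.D a v x := fun a => by
    have := congrFun (D.Z.D_add k.fl.sm (h.sm ε).fl.sm a) x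
    rw [sub_add_cancel, Pi.add_apply] at this
    rw [this, show D.Z.D a (ε • v) x = ε • D.Z.D a v x from
      dv_const_smul ε (h.hv.fl.sm.mdifferentiableAt (by simp)), add_sub_cancel_right]
  show Dec35.lin D.B D.Z (cy β) (u ε - ε • v) x = _
  simp only [Dec35.lin, Op.app, Pre.op, e, Pi.smul_apply, Pi.sub_apply, map_smul, map_sub, smul_add,
    Finset.smul_sum, Finset.sum_sub_distrib]
  abel

omit hβ in
theorem qd (x : Y × ℝ) : (fun ε => qd D.B (cy β) x (u ε x) (u ε x)) =O[𝓝[>] 0] fun ε => ε ^ 2 := by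
  have a := pt_O (V := Cv (cy β)) hD (k := 9) (by norm_num) (h.hu.mono fun _ k => k.fl) (h.O1 hD) x
  refine .trans (.of_bound ‖Dec35.qd D.B (cy β) x‖ (.of_forall fun ε => ?_)) (a.norm_left.pow 2)
  rw [Real.norm_of_nonneg (sq_nonneg _), sq, ← mul_assoc]
  exact ContinuousLinearMap.le_opNorm₂ _ _ _

end Fm2

/-- the orbit of the gauge group through `β` in the direction `ξ` -/
theorem orbit (hD : D.OK) (hβ : D.Adm β) {ξ : Y × ℝ → (cy β).m.A} (hξ : Fl D.Z.toPre ξ)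
    (hg : ∀ x, ξ x ∈ (cy β).m.gS x) : ∃ u, Fm2 D u (dg D.Z (cy β) 1 ξ) ∧ ∀ᶠ ε in 𝓝[>] 0,
      ∃ g, Eq0 D.Z (cf (cy β) 0) (cf (cy β) (u ε)) univ g := by
  have b := bs_cyl hD hβ
  obtain ⟨_, hT, hG⟩ := b.good_dO 1
  obtain ⟨K, h0, r, hr, h⟩ := Cay24.cay D.B D.G (cy β) b 9 (by norm_num) 0
  have a := dO_app hD.B hD.G hβ.adm 1 hξ.sm hg
  have n := fun ε k => nw_csmul hT (wd0 (D := D) le_rfl) ε hξ k
  have t : ∀ᶠ ε in 𝓝[>] (0 : ℝ), |ε| * n0 D 10 ξ ≤ r :=
    (((by fun_prop : Continuous fun ε : ℝ => |ε| * n0 D 10 ξ).tendsto' 0 0 (by simp)).mono_left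
      nhdsWithin_le_nhds).eventually (ge_mem_nhds hr)
  have e : ∀ ε : ℝ, dg D.Z (cy β) 1 (ε • ξ) = ε • dg D.Z (cy β) 1 ξ := fun ε => funext fun x => by
    have : ∀ a, dv (IC I3) (D.Z.e a) (ε • ξ) x = ε • dv (IC I3) (D.Z.e a) ξ x := fun a =>
      dv_const_smul ε (hξ.sm.mdifferentiableAt (by simp))
    refine ext2 (fm_ext fun a => ?_) ?_ <;> simp [dg, Wz78.nab, this]
  obtain ⟨u, H⟩ := (t.mono fun ε k => exists_comm.1 (h _ 0 0 (ε • ξ) (wd0 le_rfl) Fl.zero Tg.zero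
    (hξ.csmul ε) (fun x => Submodule.smul_mem _ _ (hg x)) ((n ε 10).trans_le k))).choice
  refine ⟨u, ⟨⟨a.1 ▸ hξ.opA hG, a.2⟩, H.mono fun _ ⟨_, k⟩ => ⟨k.1, k.2.1⟩,
    n0_O (C := K * n0 D 10 ξ ^ 2) (by positivity) (H.mono fun ε ⟨_, k⟩ => ?_)⟩,
    H.mono fun _ ⟨g, k⟩ => ⟨g, k.2.2.1⟩⟩
  have z := nw_csmul hT (wd0 (D := D) le_rfl) 0 (Fl.zero (N := Cv (cy β))) 9
  have := k.2.2.2
  rw [zero_smul, abs_zero, zero_mul] at z
  rw [n, z, show dg D.G.F (cy β) 1 (ε • ξ) = _ from e ε] at this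
  simp only [Pi.zero_apply, sub_zero] at this
  exact this.trans_eq (by rw [← sq_abs ε]; show K * (_ * n0 D 10 ξ + 0) * (_ * n0 D 10 ξ) = _; ring)

theorem sz_zero (h : N.Crit D β) : sz D β (N.q1 D.nk) 0 = 0 := funext fun x => by
  have e : ∀ c, c = cy β → c.eD D.G (N.q1 D.nk : Pt _ _ _ 0 0) x = 0 ∧
      c.eC D.B D.G (N.q1 D.nk : Pt _ _ _ 0 0) x = 0 := fun c e => e ▸ ⟨h.sol.D x, h.sol.C x⟩
  have := e _ cf_zero
  exact (congrArg₂ (fun (p : (cy β).m.V) (q : Fm _ (cy β).m.A) => i1 _ _ p + i2 _ _ q) this.1 this.2).trans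
    ((congrArg₂ (· + ·) (map_zero _) (map_zero _)).trans (add_zero _))

theorem gau (h : Hz N D β) (hc : N.Crit D β) (T : Tw D β (gz N D β)) : Gau N D β := by
  intro ξ hξ hg
  obtain ⟨u, f, e⟩ := orbit h.ok h.adm hξ hg
  have a0 := cf_adm h.adm.adm (u := 0) contMDiff_const Tg.zero
  have t := f.tw h.ok T
  refine ⟨funext fun x => sub_eq_zero.1 (zero_of_O ?_), fun x => zero_of_O ?_⟩
  · refine (((kE D β x).isBigO_comp _ _).trans (t x)).sub ((f.lin h.ok h.adm x).add (f.qd h.ok x))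
      |>.congr' ((e.and f.hu).mono fun ε ⟨⟨g, e⟩, k⟩ => ?_) .rfl
    have h1 := sz_nat h.ok h.adm (Eqv71.natZ ((okz h.ok).q1 h.nd) (okz h.ok)) (a := 0)
      contMDiff_const Tg.zero k.fl.sm k.tg e x
    have h2 := se_eq h.ok.B h.ok.G h.adm.adm (N.q1 D.nk : Pt _ _ _ 0 0) k.fl.sm k.tg x
    have h0 := congrFun (sz_zero hc) x
    rw [h0] at h1
    rw [show se _ _ _ _ _ x = 0 from h1.trans (map_zero _), show se _ _ _ _ 0 x = 0 from h0, te_eq h, te_eq h,
      zero_add, eq_comm, sub_eq_zero, show D.G.F = D.Z from rfl] at h2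
    simp only [map_sub, map_smul, ← h2, smul_sub, hz]
    abel
  · have z : ∀ {v : Cz β} {g}, Vr D β v → Eq0 D.Z (cf (cy β) 0) (cf (cy β) v) univ g →
        fa (gz N D β v x) none = 0 := fun {v g} k e => by
      have a := cf_adm h.adm.adm k.fl.sm k.tg
      have h0 : (N.dg D.nk).gA D.Z (cf (cy β) 0) x none = 0 := by
        have : ∀ c, c = cy β → (N.dg D.nk).gA D.Z c x none = 0 :=
          fun c e => e ▸ gA_none h.adm h.ok h.nd x
        exact this _ cf_zero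
      rw [fa_gz, (grad_iso h.ok h.nd (ad0 a0) (ad0 a) (Eq0.cEq (G := D.G) e h.ok.B
        (Tmp64.admOn_univ.2 a0) (Tmp64.admOn_univ.2 a)) x).1, Eqv71.ridx_apply]
      simp only [Fintype.sum_option, Eqv71.PZ, YD.B, cP, zero_smul, Finset.sum_const_zero, add_zero,
        one_smul]
      exact (congrArg _ ((congrArg _ h0).trans (map_zero _))).trans (map_zero _)
    have z0 := z ⟨Fl.zero, Tg.zero⟩ (Eq0.refl (Tmp64.admOn_univ.2 a0))
    refine (((pj _ none ∘L fa).isBigO_comp _ _).trans (t x)).neg_left.congr'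
      ((e.and f.hu).mono fun ε ⟨⟨g, e⟩, k⟩ => ?_) .rfl
    simp [z k e, z0, hz]

/-- **KP-NAT** -/
theorem ntStmt : NtStmt I3 Y κ lam := fun _ _ _ h => ⟨ti h, fun c T _ => gau h c T⟩

end Crest.Agent.X212.Kp63
end
end

-- ▼ part X212/Hd34/Sy

/-!
# Row 212, CYLF (helper34): the leaf KP-SY
-/

set_option autoImplicit false
set_option linter.unusedSectionVars false
noncomputable section
open scoped Manifold ContDiff Topology InnerProductSpace
open MeasureTheory Set Function Filter Real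

namespace Crest.Agent.X212.Hd34.Sy
open An Map77 Sob92 Nd18 Dec35 Cyf70 Hm83

theorem half {G p : ℝ → ℝ → ℝ} {p0 a b C r h : ℝ}
    (hG : ∀ s t, HasDerivAt (fun s => G s t) (p s t) s)
    (hp : ∀ s t, |s| + |t| ≤ r → |p s t - p0 - (s * a + t * b)| ≤ C * (|s| + |t|) ^ 2)
    (hC : 0 ≤ C) (h0 : 0 < h) (hr : 2 * h ≤ r) :
    |(G h h - G h 0 - (G 0 h - G 0 0)) / h - h * b| ≤ 5 * C * h ^ 2 := by
  have d := fun s => (hG s h).sub (hG s 0)
  obtain ⟨c, ⟨c0, c1⟩, e⟩ := exists_hasDerivAt_eq_slope (fun s => G s h - G s 0) _ h0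
    (fun s _ => (d s).continuousAt.continuousWithinAt) fun s _ => d s
  have h1 := hp c h
  have h2 := hp c 0
  rw [abs_of_pos c0] at h1 h2
  rw [abs_of_pos h0] at h1
  rw [abs_zero, add_zero] at h2
  have h3 := mul_le_mul_of_nonneg_left (show (c + h) ^ 2 ≤ 4 * h ^ 2 by nlinarith) hC
  have h4 := mul_le_mul_of_nonneg_left (show c ^ 2 ≤ h ^ 2 by nlinarith) hC
  rw [sub_zero] at e
  rw [← e, abs_le]
  have := abs_le.1 (h1 (by linarith))
  have := abs_le.1 (h2 (by linarith))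
  constructor <;> linarith

theorem mixed {G p q : ℝ → ℝ → ℝ} {p0 q0 a b c d C r : ℝ}
    (hG : ∀ s t, HasDerivAt (fun s => G s t) (p s t) s)
    (hG' : ∀ s t, HasDerivAt (fun t => G s t) (q s t) t)
    (hp : ∀ s t, |s| + |t| ≤ r → |p s t - p0 - (s * a + t * b)| ≤ C * (|s| + |t|) ^ 2)
    (hq : ∀ s t, |s| + |t| ≤ r → |q s t - q0 - (s * c + t * d)| ≤ C * (|s| + |t|) ^ 2)
    (hC : 0 ≤ C) (hr : 0 < r) : b = c := by
  refine sub_eq_zero.1 (abs_nonpos_iff.1 (ge_of_tendsto (x := 𝓝[>] (0 : ℝ))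
    (f := fun h => 10 * C * h) (tendsto_nhdsWithin_of_tendsto_nhds ?_) ?_))
  · exact (by fun_prop : Continuous fun h => 10 * C * h).tendsto' 0 0 (by simp)
  · filter_upwards [Ioo_mem_nhdsGT (half_pos hr)] with h ⟨h0, h1⟩
    have h2 := abs_le.1 (half hG hp hC h0 (by linarith))
    have h3 := abs_le.1 (half (G := fun t s => G s t) (p := fun t s => q s t) (r := r) (p0 := q0)
      (a := d) (b := c) (fun t s => hG' s t)
      (fun t s e => by simpa only [add_comm] using hq s t (by linarith)) hC h0 (by linarith))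
    rw [show G h h - G 0 h - (G h 0 - G 0 0) = G h h - G h 0 - (G 0 h - G 0 0) by ring] at h3
    refine le_of_mul_le_mul_left ?_ h0
    rw [← abs_of_pos h0, ← abs_mul, abs_of_pos h0, abs_le]
    constructor <;> nlinarith

variable {E3 : Type} [NormedAddCommGroup E3] [NormedSpace ℝ E3] [FiniteDimensional ℝ E3]
  [MeasurableSpace E3] [BorelSpace E3]
  {H3 : Type} [TopologicalSpace H3] {I3 : ModelWithCorners ℝ E3 H3} [I3.Boundaryless]
  {Y : Type} [TopologicalSpace Y] [ChartedSpace H3 Y] [IsManifold I3 ∞ Y] [T2Space Y]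
  [MeasurableSpace Y] [BorelSpace Y] [SecondCountableTopology Y] [CompactSpace Y]
  {κ : Type} [Fintype κ] {lam : Type} [Fintype lam]
  {V : Type} [NormedAddCommGroup V] [InnerProductSpace ℝ V] [FiniteDimensional ℝ V]
  {D : YD I3 Y κ lam} {β : YC Y κ lam} {u v : Cz β}

theorem cs (hD : D.OK) {w z : Y × ℝ → V} (hw : Fl D.Z.toPre w) (hz : Sm (IC I3) z)
    (hc : HasCompactSupport z) : |∫ x, ⟪w x, z x⟫_ℝ ∂D.Z.μ| ≤ D.Z.nrm 0 w * D.Z.nrm 0 z := by
  obtain ⟨C, hF⟩ := tame_Z hD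
  obtain ⟨h, H⟩ := ex_is hF hw 0
  have := abs_real_inner_le_norm (D.Z.incl 0 0 _ h) (D.Z.toH 0 _ ⟨z, mem_triv hz hc⟩)
  rwa [H.inner_toH, H.norm_zero, Pre.norm_toH] at this

theorem vr_lin (hu : Vr D β u) (hv : Vr D β v) (s t : ℝ) : Vr D β (s • u + t • v) :=
  ⟨(hu.fl.csmul s).add (hv.fl.csmul t), (hu.tg.smul fun _ => s).add (hv.tg.smul fun _ => t)⟩

theorem d0_smul {f : Cz β → Y × ℝ → V} (h : Tw D β f) (hu : Vr D β u) (s : ℝ) :
    d0 f (s • u) = s • d0 f u := funext fun x => by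
  have := (h.der u hu x).scomp_of_eq (0 : ℝ) ((hasDerivAt_id' (0 : ℝ)).mul_const s) (by simp)
  simpa only [d0, smul_smul, one_mul, comp_def, Pi.smul_apply] using this.deriv

theorem expand (hD : D.OK) {f : Cz β → Y × ℝ → V} (h : Tw D β f) (c0 : Continuous (f 0))
    (hu : Vr D β u) (hv : Vr D β v) : ∃ C ≥ 0, ∃ r > 0, ∀ z : Y × ℝ → V, Sm (IC I3) z →
      HasCompactSupport z → ∀ s t : ℝ, |s| + |t| ≤ r →
      |∫ x, ⟪f (s • u + t • v) x, z x⟫_ℝ ∂D.Z.μ - ∫ x, ⟪f 0 x, z x⟫_ℝ ∂D.Z.μ -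
        (s * ∫ x, ⟪d0 f u x, z x⟫_ℝ ∂D.Z.μ + t * ∫ x, ⟪d0 f v x, z x⟫_ℝ ∂D.Z.μ)| ≤
          C * D.Z.nrm 0 z * (|s| + |t|) ^ 2 := by
  obtain ⟨C', hF⟩ := tame_Z hD
  obtain ⟨d, d1, hd⟩ := h.bd
  obtain ⟨C, C0, r, r0, hb⟩ := hd 8 le_rfl 0
  have e0 : ∀ a, D.Z.D a (fun _ : Y × ℝ => (0 : ℝ)) = fun _ => 0 := fun a => dv_const _
  have hw : Wd D.Z.toPre (fun _ => 0) d 0 := ⟨contMDiff_const, fun _ => le_rfl, ⟨0, fun _ => le_rfl⟩,
    fun a x => by simpa [e0] using d1.le,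
    fun a => by rw [e0]; exact ⟨contMDiff_const, fun k => by simpa using CB_const k (0 : ℝ)⟩⟩
  set A := D.Z.nrm 9 u + D.Z.nrm 9 v + 1
  have a1 := nrm_nonneg (F := D.Z.toPre) 9 u
  have a2 := nrm_nonneg (F := D.Z.toPre) 9 v
  refine ⟨C * A ^ 2, by positivity, r / A, by positivity, fun z hz hc s t hst => ?_⟩
  have hw' := vr_lin hu hv s t
  have n1 : D.Z.nrm 9 (s • u + t • v) ≤ (|s| + |t|) * A := by
    refine (nrm_add hF (hu.fl.csmul s) (hv.fl.csmul t) 9).trans ?_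
    rw [nrm_csmul hF s hu.fl, nrm_csmul hF t hv.fl, add_mul]
    gcongr <;> simp only [A] <;> linarith
  have h1 := (hb (fun _ => 0) hw _ hw').2
  simp only [Dec35.nw, exp_zero, one_smul] at h1
  have h2 := (cs hD ((h.fl _ hw').2.sub (h.fl _ hw').1) hz hc).trans (mul_le_mul_of_nonneg_right
    ((nrm_mono (Nat.zero_le 8) _).trans ((h1 (n1.trans ((le_div_iff₀ (by positivity)).1 hst))).trans
      (mul_le_mul_of_nonneg_left (pow_le_pow_left₀ (nrm_nonneg _ _) n1 2) C0))) (nrm_nonneg 0 z))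
  have i : ∀ {w : Y × ℝ → V}, Continuous w → Integrable (fun x => ⟪w x, z x⟫_ℝ) D.Z.μ := fun hw =>
    (hw.inner hz.continuous).integrable_of_hasCompactSupport
      (hc.mono fun x hx e => hx (by simp [e]))
  have c1 : Continuous (f (s • u + t • v)) := by
    simpa using (h.fl _ hw').2.sm.continuous.add c0
  have i1 := (i (h.fl u hu).1.sm.continuous).const_mul s
  have i2 := (i (h.fl v hv).1.sm.continuous).const_mul t
  rw [h.add _ _ (by simpa using vr_lin hu hv s 0) (by simpa using vr_lin hu hv 0 t), d0_smul h hu,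
    d0_smul h hv] at h2
  simp only [Pi.sub_apply, Pi.add_apply, Pi.smul_apply, inner_sub_left, inner_add_left,
    real_inner_smul_left] at h2
  erw [integral_sub ((i c1).sub (i c0)) (i1.add i2), integral_sub (i c1) (i c0), integral_add i1 i2,
    integral_const_mul, integral_const_mul] at h2
  exact h2.trans_eq (by ring)

/-- **KP-SY** -/
theorem sy {N : ND Y lam} (hD : D.OK) (h : Tw D β (gz N D β)) (c0 : Continuous (gz N D β 0))
    (hg : Grad N D β) : Sy N D β := fun u v hu hv cu cv => by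
  obtain ⟨F, hF⟩ := hg
  obtain ⟨C, C0, r, r0, hb⟩ := expand hD h c0 hu hv
  have cw : ∀ s t : ℝ, HasCompactSupport (s • u + t • v) := fun s t => cu.smul_left.add cv.smul_left
  have m : ∀ {a b x : ℝ}, 0 ≤ b → C * a * x ^ 2 ≤ C * (a + b) * x ^ 2 := fun hb => by
    gcongr; linarith
  have := mixed (G := fun s t => F (s • u + t • v)) (C := C * (D.Z.nrm 0 u + D.Z.nrm 0 v))
    (fun s t => ?_) (fun s t => ?_)
    (fun s t e => (hb u hu.fl.sm cu s t e).trans (m (nrm_nonneg _ _)))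
    (fun s t e => (hb v hv.fl.sm cv s t e).trans ((m (nrm_nonneg _ _)).trans_eq (by rw [add_comm])))
    (mul_nonneg C0 (add_nonneg (nrm_nonneg _ _) (nrm_nonneg _ _))) r0
  · simp only [real_inner_comm (hz N D β v _)]
    exact this.symm
  · have := hF _ u (vr_lin hu hv s t) hu (cw s t) cu
    rw [← sub_self s] at this
    refine (this.comp_sub_const s s).congr_of_eventuallyEq (.of_forall fun y => congrArg F ?_)
    module
  · have := hF _ v (vr_lin hu hv s t) hv (cw s t) cv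
    rw [← sub_self t] at this
    refine (this.comp_sub_const t t).congr_of_eventuallyEq (.of_forall fun y => congrArg F ?_)
    module

theorem syStmt (c0 : All I3 Y κ lam fun N D β => Continuous (gz N D β 0)) : SyStmt I3 Y κ lam :=
  fun N D β h t g => sy h.ok t (c0 N D β h) g

end Crest.Agent.X212.Hd34.Sy
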