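import Crest.Agent.X212.Hp13.TraD
import Crest.Agent.X212.Cut21.Brg
import Crest.Agent.X212.Kh11.Bas
import Crest.Agent.X212.Dd39.Lv
import Crest.Agent.X212.Alg36.Nm2
import Crest.Agent.X212.Kh11.Lev
import Crest.Agent.X212.Sm10.Mv3a

-- ▼ part X212/Hp13/TraS
section

/-!
# X212 / Hp13 (helper13): `SwsStmt`, `TraSStmt`; a ball is moved off the innermost discs of a surface
-/

set_option autoImplicit false
set_option linter.unusedSectionVars false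

open Finset Classical

namespace Crest.Agent.X212.Hp13

open Crest.Agent.X212.Alg36 Cut21
open Pt30 hiding Dsc
open Hk
open Kh11 (WS)

section
variable {P : Type} [PartialOrder P] [Fintype P] {X Y H A K B Z : Set P} {w u v : P → P → ℤ}

/-- a locally constant function that vanishes outside -/
theorem pot_zero (h : Amb Y) {γ : Type} {g : P → γ} {a : γ} (h0 : ∀ x, x ∉ Y → g x = a)
    (h1 : ∀ x, ∀ y ∈ cl Y, x ≤ y → g x = g y) (p : P) : g p = a := by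
  by_cases k : p ∈ Y
  · obtain ⟨b, hb, r, x, hx, l⟩ := h.esc p k
    rw [r.eq fun s _ t ht j => h1 s t (sub_cl ht) j,
      ← h1 x b (sub_cl hb) (l.resolve_left fun j => hx (h.up j hb)), h0 x hx]
  · exact h0 p k

theorem eu_ne (h : eu B ≠ 0) : B.Nonempty := by
  by_contra k
  exact h (by rw [eu, filter_false_of_mem fun c _ j => k ⟨_, j _ c.top_mem⟩]; simp)

theorem Hk.Bal.ne (h : Bal Y B) : B.Nonempty := eu_ne (by rw [h.eu]; norm_num)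

/-- the potential of a sphere -/
def Pot (Y : Set P) (g : P → ℤ) : Prop := (∃ B, Bal Y B ∧ g = ind B) ∨
  ∃ L, IsLowerSet L ∧ Bal (Ch.top ⁻¹' Y) (Ch.bot ⁻¹' L : Set (Ch P)) ∧ g = -ind L

theorem enc_pot (h : Amb Y) (hw : SP Y w) :
    ∃ g, Pot Y g ∧ (∀ x, x ∉ Y → g x = 0) ∧ EqE (cl Y) w (cb g) := by
  rcases encStmt P Y w h hw with ⟨B, a, b⟩ | ⟨L, a, b, c, d⟩
  · exact ⟨_, Or.inl ⟨B, a, rfl⟩, fun x k => ind_of_not fun j => k (a.sub j), b⟩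
  · exact ⟨_, Or.inr ⟨L, a, d, rfl⟩, fun x k => by simp [ind_of_not fun j => k (b j)],
      fun x p y q l => by rw [c x p y q l]; simp only [cb, Pi.neg_apply]; ring⟩

/-- two spheres whose sum is a coboundary -/
theorem enc_two (h : Amb Y) (hu : SP Y u) (hv : SP Y v) {g : P → ℤ} (h0 : ∀ x, x ∉ Y → g x = 0)
    (e : EqE (cl Y) (cb g) (u + v)) : ∃ g₁ g₂, Pot Y g₁ ∧ Pot Y g₂ ∧ (∀ x, x ∉ Y → g₁ x = 0) ∧
      (∀ x, x ∉ Y → g₂ x = 0) ∧ EqE (cl Y) u (cb g₁) ∧ EqE (cl Y) v (cb g₂) ∧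
      ∀ x, g₁ x + g₂ x = g x := by
  obtain ⟨g₁, a1, a2, a3⟩ := enc_pot h hu
  obtain ⟨g₂, b1, b2, b3⟩ := enc_pot h hv
  refine ⟨g₁, g₂, a1, b1, a2, b2, a3, b3, fun x => sub_eq_zero.1 (pot_zero h
    (g := fun x => g₁ x + g₂ x - g x) (fun x k => by simp [a2 x k, b2 x k, h0 x k])
    (fun x y k l => ?_) x)⟩
  have := e x (cl_low l k) y k l
  have := a3 x (cl_low l k) y k l
  have := b3 x (cl_low l k) y k l
  simp only [cb, Pi.add_apply] at *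
  omega

theorem capH_sub (hB : IsUpperSet B) (c : CapH H A (cb (ind B)) Z) : Z ⊆ B :=
  (Flat.sub_or c.flat c.ctr.conn).resolve_right fun k =>
    let ⟨y, a, x, b, d⟩ := c.ne; Set.disjoint_left.1 k a (cb_ind_eq_one.1 (c.one y a x b d)).2

theorem capH_v (hB : IsUpperSet B) (hA : A ⊆ Y) (hH : IsLowerSet H) (hm : MfIn H A)
    (c : CapH H A (cb (ind B)) Z) : CapV Y H (cb (ind B)) Z :=
  ⟨⟨Mf.mono hm fun _ j => (c.sub j).2, fun _ j => hA (c.sub j).2,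
    fun _ j _ l => hH l (c.sub j).1, c.up, c.ctr.conn,
    let ⟨y, a, x, b, d⟩ := c.ne; ⟨x, d, y, a, b⟩⟩, c.ctr.eu, c.one, fun _ a _ _ l =>
    cb_ind_eq_zero.2 (iff_of_true (capH_sub hB c a) (hB l (capH_sub hB c a)))⟩

theorem ind_diff (h : Z ⊆ B) (x : P) : ind (B \ Z) x = ind B x - ind Z x := by
  by_cases a : x ∈ Z
  · simp [ind, a, h a]
  · by_cases b : x ∈ B <;> simp [ind, a, b]

/-- a potential that jumps only into `B \ Z` vanishes off `B \ Z` -/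
theorem vanish (h : Amb Y) (hB : Bal Y B) (c : CapH H A (cb (ind B)) Z) {g : P → ℤ}
    (h0 : ∀ x, x ∉ Y → g x = 0) (h1 : ∀ x, ∀ y ∈ cl Y, x ≤ y → y ∉ B \ Z → g x = g y) {p : P}
    (hp : p ∉ B \ Z) : g p = 0 := by
  have s := capH_sub hB.up c
  obtain ⟨y₀, a, x₀, b, d⟩ := c.ne
  have n := cb_ind_eq_one.1 (c.one y₀ a x₀ b d)
  have m : ∀ x y (l : x ≤ y), x ∉ B → y ∈ B → Ch.pr x y l ∈ mix B := fun x y l i j =>
    (mix_up hB.up).2 ⟨by simpa using j, by simpa using i⟩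
  have k := pot_zero h (g := fun x => if x ∈ B then g y₀ else g x) (a := 0)
    (fun x k => by simp only [if_neg fun j => k (hB.sub j), h0 x k]) fun x y k l => by
      by_cases j : y ∈ B
      · by_cases i : x ∈ B
        · simp only [if_pos i, if_pos j]
        · have := (hB.conn _ (m x y l i j) _ (m x₀ y₀ b n.1 n.2)).eq (g := fun c => g c.bot)
            fun c p e _ q => (h1 _ _ (cl_low c.bot_le_top (sub_cl (hB.sub ((mix_up hB.up).1 p).1)))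
              (Ch.bot_anti q) fun r => ((mix_up hB.up).1 p).2 r.1).symm
          simp only [Ch.bot_pr] at this
          rw [if_neg i, if_pos j, this]
          exact h1 _ _ (sub_cl (hB.sub n.2)) b fun r => r.2 a
      · rw [if_neg j, if_neg fun i => j (hB.up l i)]
        exact h1 x y k l fun r => j r.1
  by_cases j : p ∈ B
  · have := k y₀
    rw [if_pos n.2] at this
    rw [← this]
    exact (c.ctr.conn p (by_contra fun i => hp ⟨j, i⟩) y₀ a).eq fun x _ y q l =>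
      h1 x y (sub_cl (hB.sub (s q))) l fun r => r.2 q
  · simpa only [if_neg j] using k p

theorem sws (h : Amb Y) (hA : A ⊆ Y) (hH : IsLowerSet H) (hm : MfIn H A) (hB : Bal Y B)
    (c : CapH H A (cb (ind B)) Z) :
    ∃ B₁ B₂, Bal Y B₁ ∧ Bal Y B₂ ∧ Disjoint B₁ B₂ ∧ B₁ ∪ B₂ = B \ Z := by
  have v := capH_v hB.up hA hH hm c
  have sp := hB.sp h.toRg
  have z := v.z1 h.up ((s1_iff h.up).1 sp.toS1)
  have i := IsCoc.mk z.coc
  obtain ⟨T, -, t1, t2⟩ := v.sph h.up h.mf sp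
  have e : EqE (cl Y) (cb (ind (B \ Z))) (cnt T + cnt Tᶜ) := fun x _ y q l => by
    rw [← cnt_add_compl (T := T) z.mono x y ((dp_iff h.up).2 ⟨l, q⟩)]
    simp only [cb, Pi.sub_apply, ind_diff (capH_sub hB.up c)]; ring
  obtain ⟨g₁, g₂, a1, a2, b1, b2, c1, c2, d⟩ := enc_two h t1 t2
    (fun x k => ind_of_not fun j => k (hB.sub j.1)) e
  have key : ∀ x, ∀ y ∈ cl Y, x ≤ y → y ∉ B \ Z → g₁ x = g₁ y ∧ g₂ x = g₂ y := fun x y q l n => by
    have := c1 x (cl_low l q) y q l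
    have := c2 x (cl_low l q) y q l
    have := e x (cl_low l q) y q l
    have := cnt_nonneg (T := T) x y
    have := cnt_nonneg (T := Tᶜ) x y
    have := ind_nonneg (E := B \ Z) x
    simp only [cb, Pi.add_apply, ind_of_not n] at *
    omega
  have le : ∀ g, Pot Y g → ∀ x, g x ≤ 1 := fun g a x => by
    rcases a with ⟨B, -, rfl⟩ | ⟨L, -, -, rfl⟩
    · exact ind_le_one x
    · have := ind_nonneg (E := L) x
      simp only [Pi.neg_apply]; omega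
  have up : ∀ g g' : P → ℤ, Pot Y g → Pot Y g' → (∀ p, p ∉ B \ Z → g p = 0) →
      (∀ x, g x + g' x = ind (B \ Z) x) → ∃ B, Bal Y B ∧ g = ind B := fun g g' a a' b d =>
    a.resolve_right fun ⟨L, _, l, k⟩ => by
      obtain ⟨c, hc⟩ := Hk.Bal.ne l
      have e : g c.bot = -1 := by rw [k, Pi.neg_apply, ind_of_mem (E := L) hc]
      have := d c.bot
      have := le g' a' c.bot
      rw [ind_of_mem (by_contra fun j => by have := b _ j; omega)] at *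
      omega
  obtain ⟨B₁, p1, rfl⟩ := up _ _ a1 a2
    (fun p => vanish h hB c b1 fun x y q l n => (key x y q l n).1) d
  obtain ⟨B₂, p2, rfl⟩ := up _ _ a2 a1
    (fun p => vanish h hB c b2 fun x y q l n => (key x y q l n).2) fun x => (add_comm _ _).trans (d x)
  refine ⟨B₁, B₂, p1, p2, Set.disjoint_left.2 fun x i j => ?_, Set.ext fun x => ?_⟩
  · have := d x
    have := ind_le_one (E := B \ Z) x
    rw [ind_of_mem i, ind_of_mem j] at *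
    omega
  · have := d x
    simp only [ind] at this
    rw [Set.mem_union]
    split_ifs at this <;> first | tauto | omega

/-- a connected set in the union of two disjoint upper sets -/
theorem conn_two_up {B₁ B₂ : Set P} (h1 : IsUpperSet B₁) (h2 : IsUpperSet B₂) (d : Disjoint B₁ B₂)
    (hK : Conn K) (s : K ⊆ B₁ ∪ B₂) : K ⊆ B₁ ∨ K ⊆ B₂ :=
  (Flat.sub_or (B := B₁) (fun _ a _ _ l => cb_ind_eq_zero.2 ⟨h1 l, fun j => (s a).resolve_right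
    fun i => Set.disjoint_left.1 d j (h2 l i)⟩) hK).imp_right fun k _ a =>
      (s a).resolve_left (Set.disjoint_left.1 k a)

theorem sws_lt {B₁ B₂ : Set P} (hH : IsLowerSet H) (hA : A ⊆ Y) (c : CapH H A (cb (ind B)) Z)
    (h1 : IsUpperSet B₁) (h2 : IsUpperSet B₂) (d : Disjoint B₁ B₂) (e : B₁ ∪ B₂ = B \ Z) :
    ncmp (Cv (H ∩ cl Y) (cb (ind B₁))) < ncmp (Cv (H ∩ cl Y) (cb (ind B))) := by
  have s : B₁ ⊆ B \ Z := e ▸ Set.subset_union_left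
  have k : ∀ x ∈ B, ∀ y ∈ H, x ≤ y → y ∈ B₁ → x ∈ B₁ := fun x a y b l j =>
    (show x ∈ B₁ ∪ B₂ from e ▸ ⟨a, fun i => (s j).2 (c.up x i y b l)⟩).resolve_right
      fun i => Set.disjoint_left.1 d j (h2 l i)
  obtain ⟨y, a, x, b, n⟩ := c.ne
  have hy : y ∈ H ∩ cl Y := ⟨(c.sub a).1, sub_cl (hA (c.sub a).2)⟩
  refine ncmp_lt (fun q r => ⟨r.1, ?_⟩) (fun q r p i j => ⟨i.1, ?_⟩) (k := Ch.pr x y b)
    ⟨by simpa using ⟨(hH.inter cl_low) b hy, hy⟩, by simp [c.one y a x b n]⟩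
    fun r => (s (by simpa using (cb_ind_pos.1 r.2).2)).2 a
  · have t := cb_ind_pos.1 r.2
    exact cb_ind_pos.2 ⟨fun i => t.1 (k _ i _ (r.1 _ q.top_mem).1 q.bot_le_top t.2), (s t.2).1⟩
  · have t := cb_ind_pos.1 r.2
    have t' := cb_ind_pos.1 i.2
    exact cb_ind_pos.2 ⟨fun m => t'.1 (s m).1, j.elim (fun l => h1 (Ch.top_mono l) t.2)
      fun l => k _ t'.2 _ (r.1 _ q.top_mem).1 (Ch.top_mono l) t.2⟩

theorem conn_sd (h : Conn K) : Conn (Ch.top ⁻¹' K : Set (Ch P)) :=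
  (Kh11.ce_top.ws_pre K).conn_iff.2 h

/-- surgery of `-cb (ind L)`: one of the two spheres has `K` inside -/
theorem low_two {L : Set P} (h : Amb Y) (hu : SP Y u) (hv : SP Y v) (hL : L ⊆ Y)
    (e : EqE (cl Y) (cb (-ind L)) (u + v)) (hK : Conn K) (s : K ⊆ L) :
    ∃ L', IsLowerSet L' ∧ Bal (Ch.top ⁻¹' Y) (Ch.bot ⁻¹' L' : Set (Ch P)) ∧ K ⊆ L' ∧
      (EqE (cl Y) u (cb (-ind L')) ∨ EqE (cl Y) v (cb (-ind L'))) := by
  obtain ⟨g₁, g₂, a1, a2, -, -, c1, c2, d⟩ := enc_two h hu hv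
    (fun x k => by simp [ind_of_not fun j => k (hL j)]) e
  have mem : ∀ {E : Set P} {x : P}, ind E x ≠ 0 → x ∈ E := fun k => by_contra fun j =>
    k (ind_of_not j)
  rcases a1 with ⟨B₁, p1, rfl⟩ | ⟨L₁, p1, q1, rfl⟩ <;>
    rcases a2 with ⟨B₂, p2, rfl⟩ | ⟨L₂, p2, q2, rfl⟩
  · obtain ⟨x, hx⟩ := Hk.Bal.ne p1
    have := d x
    have := ind_nonneg (E := B₂) x
    have := ind_nonneg (E := L) x
    simp only [Pi.neg_apply, ind_of_mem hx] at *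
    omega
  · refine ⟨L₂, p2, q2, fun x k => mem ?_, Or.inr c2⟩
    have := d x
    have := ind_nonneg (E := B₁) x
    simp only [Pi.neg_apply, ind_of_mem (s k)] at *
    omega
  · refine ⟨L₁, p1, q1, fun x k => mem ?_, Or.inl c1⟩
    have := d x
    have := ind_nonneg (E := B₂) x
    simp only [Pi.neg_apply, ind_of_mem (s k)] at *
    omega
  · have t : ∀ x ∈ K, x ∈ L₁ ↔ x ∉ L₂ := fun x k => by
      have := d x
      simp only [Pi.neg_apply, ind_of_mem (s k)] at this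
      simp only [ind] at this
      split_ifs at this <;> first | tauto | omega
    rcases Flat.sub_or (B := L₁) (fun x a y b l => cb_ind_eq_zero.2
      ⟨fun i => (t y b).2 fun j => (t x a).1 i (p2 l j), p1 l⟩) hK with k | k
    · exact ⟨L₁, p1, q1, k, Or.inl c1⟩
    · exact ⟨L₂, p2, q2, fun x a => by_contra fun j => Set.disjoint_left.1 k a ((t x a).2 j),
        Or.inr c2⟩

theorem rev_neg {L : Set P} : rev (cb (-ind L)) = cb (ind (Ch.bot ⁻¹' L : Set (Ch P))) := by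
  funext c d
  simp only [rev, cb, Pi.neg_apply]
  show _ = ind L d.bot - ind L c.bot
  ring

end

theorem swsStmt : SwsStmt := fun _ _ _ _ _ _ _ _ => sws

/-- the statement for `n` curves -/
def TraSN (n : ℕ) : Prop := ∀ (P : Type) [PartialOrder P] [Fintype P] (Y A H B K₀ : Set P),
  Amb Y → IsUpperSet A → A ⊆ Y → IsLowerSet H → MfIn H A → Bal Y B → IsLowerSet K₀ → Conn K₀ →
    Disjoint K₀ (H ∩ A) → K₀ ⊆ B → ncmp (Cv (H ∩ cl Y) (cb (ind B))) = n →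
    ∃ t f B', Tw P t f ∧ Bal (f ⁻¹' Y) B' ∧ f ⁻¹' K₀ ⊆ B' ∧
      NoCap (f ⁻¹' H) (f ⁻¹' A) (cb (ind B'))

theorem traSStmt (hR : RevStmt) : TraSStmt := by
  suffices k : ∀ n, TraSN n from fun P _ _ Y A H B K a b c d e f g h i j =>
    k _ P Y A H B K a b c d e f g h i j rfl
  intro n
  induction n using Nat.strong_induction_on with
  | _ n ih =>
  intro P _ _ Y A H B K h hA hAY hH hm hB hK cK dK sK e
  by_cases nc : NoCap H A (cb (ind B))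
  · exact ⟨lv0 P, id, B, Desc.refl, hB, sK, nc⟩
  simp only [NoCap, not_forall, not_and_or, not_not] at nc
  obtain ⟨Z, c | c⟩ := nc
  · obtain ⟨B₁, B₂, p1, p2, d, u⟩ := sws h hAY hH hm hB c
    rcases conn_two_up p1.up p2.up d cK (u ▸ fun x a => ⟨sK a, fun j =>
      Set.disjoint_left.1 dK a (c.sub j)⟩) with k | k
    · exact ih _ (e ▸ sws_lt hH hAY c p1.up p2.up d u) P Y A H B₁ K h hA hAY hH hm p1 hK cK dK k rfl
    · exact ih _ (e ▸ sws_lt hH hAY c p2.up p1.up d.symm (Set.union_comm _ _ ▸ u)) P Y A H B₂ K h hA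
        hAY hH hm p2 hK cK dK k rfl
  · have sp := hB.sp h.toRg
    obtain ⟨-, -, -, r1, -, r2, -, r3⟩ := hR P Y _ h.up sp.toS1
    have k := (r3 H A Z hH hA hAY).2 c
    have v := capV_rev hAY hH hm c k
    have h' := amb_sd h
    have z := (s1_iff h'.up).1 (r2 sp).toS1
    have z' := v.z1 h'.up z
    have i := IsCoc.mk z'.coc
    obtain ⟨T, t0, t1, t1'⟩ := v.sph h'.up h'.mf (r2 sp)
    have dj : Disjoint Z B := (Flat.sub_or c.flat c.ctr.conn).resolve_left fun j =>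
      let ⟨x, a, y, b, l, d⟩ := c.ne; (cb_ind_eq_one.1 (c.one x a y b l d)).1 (j a)
    have sum : ∀ q : Ch P, ind (Ch.bot ⁻¹' B ∪ Ch.top ⁻¹' H ∩ Ch.bot ⁻¹' Z) q =
        ind B q.bot + ind (Ch.top ⁻¹' H ∩ Ch.bot ⁻¹' Z) q := fun q => by
      by_cases a : q.bot ∈ B
      · have : q.bot ∉ Z := fun j => Set.disjoint_left.1 dj j a
        simp [ind, a, this]
      · simp [ind, a]
    obtain ⟨L, l1, l2, l3, l4⟩ := low_two (K := Ch.top ⁻¹' K)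
      (L := Ch.bot ⁻¹' B ∪ Ch.top ⁻¹' H ∩ Ch.bot ⁻¹' Z) h' t1 t1'
      (Set.union_subset (fun q j => h.up q.bot_le_top (hB.sub j)) v.low.sub)
      (fun x _ y q l => by
        rw [← cnt_add_compl (T := T) z'.mono x y ((dp_iff h'.up).2 ⟨l, q⟩)]
        simp only [cb, rev, Pi.sub_apply, Pi.neg_apply, sum]; ring)
      (conn_sd cK) fun q j => Or.inl (sK (hK q.bot_le_top j))
    obtain ⟨T', s0, s1, s2⟩ : ∃ T' : Set (Lv (Ch.top ⁻¹' Y) (rev (cb (ind B)) -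
        cb (ind (Ch.top ⁻¹' H ∩ Ch.bot ⁻¹' Z)))), Sat T' ∧ SP (Ch.top ⁻¹' Y) (cnt T') ∧
        EqE (cl (Ch.top ⁻¹' Y)) (cnt T') (cb (-ind L)) :=
      l4.elim (fun j => ⟨T, t0, t1, j⟩) fun j => ⟨Tᶜ, t0.compl, t1', j⟩
    have hH' : IsLowerSet (Ch.top ⁻¹' H : Set (Ch P)) := hH.preimage Ch.top_mono
    have hK' : IsLowerSet (Ch.top ⁻¹' K : Set (Ch P)) := hK.preimage Ch.top_mono
    have lt := v.ncmp_lt h'.up z (K := Ch.top ⁻¹' H ∩ cl (Ch.top ⁻¹' Y)) Set.inter_subset_right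
      Set.inter_subset_left (fun y a x l => ⟨v.low.dn y a x l, _, v.low.sub a, l⟩) s0
    have e1 := ws_ncmp (r1 _ (hH.inter cl_low) Set.inter_subset_right)
    have e2 := ws_ncmp ((hR _ _ _ h'.up (s1.toS1.congr s2.symm)).2.2.2.1 _ (hH'.inter cl_low)
      Set.inter_subset_right)
    rw [cv_congr (s2.mono Set.inter_subset_right), ← e2, rev_neg, Set.preimage_inter, ← cl_sd] at lt
    rw [Set.preimage_inter, ← cl_sd, e] at e1
    obtain ⟨t, f, B', a, b, d, g⟩ := ih _ (lt.trans_eq e1) (Ch (Ch P)) _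
      (Ch.top ⁻¹' (Ch.top ⁻¹' A)) _ _ (Ch.top ⁻¹' (Ch.top ⁻¹' K)) (amb_sd h')
      ((hA.preimage Ch.top_mono).preimage Ch.top_mono) (fun _ j => hAY j)
      (hH'.preimage Ch.top_mono) (mfIn_sd hH' (mfIn_sd hH hm)) l2 (hK'.preimage Ch.top_mono)
      (conn_sd (conn_sd cK)) (dK.preimage t2) (fun q j => l3 (hK' q.bot_le_top j)) rfl
    exact ⟨t, t2 ∘ f, B', (Cut21.desc2 (lv0 P)).trans a, b, d, g⟩

end Crest.Agent.X212.Hp13
end

-- ▼ part X212/Hp13/Rsl1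
section

/-!
# X212 / Hp13 (helper13): the surface `HS` under a maximal surface, part 1
-/

set_option autoImplicit false
set_option linter.unusedSectionVars false

open Finset Classical

namespace Crest.Agent.X212.Hp13

open Crest.Agent.X212.Alg36 Cut21
open Pt30 hiding Dsc
open Crest.Agent.X212.Hk
open Kh11 (WS sctr_min)

variable {P : Type} [PartialOrder P] [Fintype P] {X Y M W : Set P} {z w e : P → P → ℤ}

theorem isCmp_sub {S T C : Set P} (h : IsCmp S C) (h1 : C ⊆ T) (h2 : T ⊆ S) : IsCmp T C := by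
  obtain ⟨x, hx⟩ := h.ne
  exact ⟨x, h1 hx, Set.ext fun y => ⟨fun k => ⟨h1 k, (h.conn x hx y k).mono h1⟩,
    fun k => h.eq hx ▸ ⟨h2 k.1, k.2.mono h2⟩⟩⟩

theorem ctr_top (h : Z1 M e) {d : Ch P} (hd : d ∈ Qe M e) :
    Ctr {C : Ch (Ch P) | C.top = d ∧ 0 < e C.bot.top d.top} := by
  have m : Mt {x | 0 < e x d.top} d := ⟨_, d.bot_mem, hd.2⟩
  have k : ∀ C : Ch (Ch P), C.top = d → 0 < e C.bot.top d.top → C.bot ≤ rs {x | 0 < e x d.top} d :=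
    fun C a b x hx => by
      have l : C.bot ≤ d := a ▸ C.bot_le_top
      have := h.coc.add' hd.1 (l hx) (l C.bot.top_mem) d.top_mem (Ch.le_top hx) (Ch.top_mono l)
      have := h.mono _ _ (hd.1.dp (l hx) (l C.bot.top_mem) (Ch.le_top hx))
      exact (mem_rs m).2 ⟨l hx, show 0 < e x d.top by omega⟩
  refine (force (rs {x | 0 < e x d.top} d) (fun C hC => ?_) fun C hC l => ?_).ctr_iff.1
    (sctr_min (m := Ch.pr _ d (rs_le m)) ⟨⟨by simp, by simpa using ((mem_rs m).1 (Ch.top_mem _)).2⟩,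
      by simp⟩ fun C hC => Cut21.pr_le hC.2 (hC.1.1 ▸ C.top_mem))
  · have a : C.bot ∈ C.1.filter (Cm (rs {x | 0 < e x d.top} d)) :=
      mem_filter.2 ⟨C.bot_mem, Or.inr (k C hC.1 hC.2)⟩
    refine ⟨C.sub _ ⟨_, a⟩ (filter_subset _ _), ⟨Ch.top_eq (mem_filter.2 ⟨hC.1 ▸ C.top_mem,
      Or.inl (rs_le m)⟩) fun x l => hC.1 ▸ Ch.le_top (mem_filter.1 l).1, ?_⟩, rfl⟩
    rw [Ch.bot_eq (c := C.sub _ ⟨_, a⟩ (filter_subset _ _)) a
      fun x l => Ch.bot_le (mem_filter.1 l).1]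
    exact hC.2
  · exact ⟨(Pt30.top_ins ((rs_le m).trans hC.1.ge)).trans hC.1,
      by rw [Pt30.bot_ins (k C hC.1 hC.2)]; exact hC.2⟩

/-- the cells one level up, seen from their top -/
theorem ws_tops (h : Z1 M e) {B : Set (Ch P)} (hB : B ⊆ Mx M e) :
    WS {C : Ch (Ch P) | C.top ∈ B ∧ 0 < e C.bot.top C.top.top} B Ch.top := by
  refine WS.of_le (fun C k => k.1) (fun _ _ _ _ l => Ch.top_mono l) fun d hd => ?_
  refine (WS.of_clo' (D := {C : Ch (Ch P) | C.top = d ∧ 0 < e C.bot.top d.top})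
    (A := {C | (C.top ∈ B ∧ 0 < e C.bot.top C.top.top) ∧ C.top ≤ d})
    (fun C k => ⟨⟨k.1 ▸ hd, k.1 ▸ k.2⟩, k.1.le⟩) fun C k => ⟨tp C d k.2, ⟨by simp, ?_⟩,
      le_tp _ _ _, fun b hb l => tp_le l (hb.1 ▸ b.top_mem)⟩).ctr_iff.1
    (ctr_top h (mx_qe subset_rfl (hB hd)))
  have := h.add (hB hd).1 (Ch.top_mono C.bot_le_top) (Ch.top_mono k.2) le_rfl
  have := h.nn (hB hd).1 (Ch.top_mono k.2) le_rfl
  have := k.1.2
  rw [bot_tp]
  omega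

/-- from cells to chains -/
theorem fam_of [IsCoc M e] (h : Z1 M e) (hM : IsUpperSet M) (h3 : Mf 3 M) {G : Set (Ch P)}
    (hG : ∀ p ∈ Mx M e, p ∈ G → ∀ q ∈ Mx M e, q ≤ p → q ∈ G) {D : Set (Lv M e)}
    (h1 : IsCmp (LA M e \ Pt30.ch ⁻¹' G) D) (h2 : ¬ Tch M e D) (h4 : chiC D = 1) :
    ∃ C, IsCmp (Mx M e \ G) C ∧ ¬ Tc M e C ∧ eu C = 1 := by
  rw [la_eq hM, ← Set.preimage_diff] at h1
  have sq : Mx M e \ G ⊆ Qe _ _ := Set.sdiff_subset.trans (mx_qe subset_rfl)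
  obtain ⟨C, c1, rfl⟩ := h.cmp_ex sq h1
  have sC : C ⊆ Mx M e := c1.sub.trans Set.sdiff_subset
  have uC : IsUpperSet C := fun a b k ha =>
    have m := mx_upper h hM subset_rfl k (sC ha)
    c1.clopen ha ⟨m, fun j => (c1.sub ha).2 (hG b m j a (sC ha) k)⟩ (Or.inl k)
  exact ⟨C, c1, fun k => h2 (tch_of_tc h hM sC k),
    by rw [h.eu_eq h3 sC uC, ← h.chiC_pre (c1.sub.trans sq), h4]⟩

theorem hs_into (h : S1 Y z) {x y : P} (hy : y ∈ HS Y z) (l : x ≤ y) : z x y = 0 := by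
  obtain ⟨u, h1, h2, h3⟩ := hy
  have := h.add (sub_cl h1) l h2
  have := h.nn x y ⟨u, h1, h2⟩ l
  have := h.le1 x u (sub_cl h1) (l.trans h2)
  omega

theorem hs_from (h : S1 Y z) {x y : P} (hx : x ∉ HS Y z) (hy : y ∈ Y) (l : x ≤ y) : z x y = 0 :=
  le_antisymm (not_lt.1 fun k => hx ⟨y, hy, l, k⟩) (h.nn x y (sub_cl hy) l)

theorem hs_pre {t : St} {f : t.P → P} (h : Tw P t f) :
    HS (f ⁻¹' Y) (pb f z) = f ⁻¹' HS Y z :=
  Set.ext fun _ => ⟨fun ⟨_, a, l, k⟩ => ⟨_, a, Dd39.tw_mono h l, k⟩, fun ⟨_, a, l, k⟩ =>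
    let ⟨p, h1, h2⟩ := Sup43.desc_up (s := lv0 P) h l
    ⟨p, by rwa [Set.mem_preimage, h2], h1, by rwa [pb, h2]⟩⟩

theorem hs_sd : HS (Ch.top ⁻¹' Y : Set (Ch P)) (pb Ch.top z) = Ch.top ⁻¹' HS Y z :=
  hs_pre (Desc.sd (lv0 P))

/-- the cells over a part of `HS` -/
theorem ws_hs (h : S1 Y z) (hY : IsUpperSet Y) (hW : W ⊆ HS Y z ∩ Y)
    (k : ∀ x ∈ W, Ctr {i | (i ∉ HS Y z ∧ z x i = 1) ∧ x ≤ i}) :
    WS {K | K ∈ Mx Y z ∧ K.bot ∈ W} W (Pt30.tw W) := by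
  refine WS.comp (f := rs W) (WS.of_ge (B := Kh11.In W Set.univ)
    (fun c k => ⟨fun _ l => ((mem_rs ⟨_, c.bot_mem, k.2⟩).1 l).2, trivial⟩)
    (fun c k _ _ l => rs_mono ⟨_, c.bot_mem, k.2⟩ l) fun d hd => ?_) (Kh11.ws_top W)
  have t := hd.1 _ d.top_mem
  convert Pt30.ctr_over (V := {i | i ∉ HS Y z ∧ z d.top i = 1}) (· ∈ W) (hd.1 _ d.bot_mem) (k _ t) using 1
  ext c
  refine ⟨fun j => ?_, fun j => ?_⟩
  · have l := j.2.trans (rs_le ⟨_, c.bot_mem, j.1.2⟩)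
    have := h.add (sub_cl j.1.1.1) (Ch.bot_le (l d.top_mem)) (Ch.top_mono l)
    have := hs_into h (hW t).1 (Ch.bot_le (l d.top_mem))
    have := h.le1 _ _ (sub_cl j.1.1.1) c.bot_le_top
    have := j.1.1.2
    exact ⟨l, ⟨fun i => by have := hs_into h i c.bot_le_top; omega, by omega⟩, j.1.2⟩
  · have m : Mt W c := ⟨_, c.bot_mem, j.2.2⟩
    have y := hY (Ch.top_mono j.1) (hW t).2
    exact ⟨⟨⟨y, h.pos (sub_cl y) (j.1 d.top_mem) c.top_mem (Ch.top_mono j.1)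
      (by rw [j.2.1.2]; norm_num)⟩, j.2.2⟩, fun x l => (mem_rs m).2 ⟨j.1 l, hd.1 x l⟩⟩

/-- every point of `HS` is joined to the outside -/
theorem hs_out (hY : IsUpperSet Y) (h : S1 Y z) (hs : Sf Y z) {x : P} (hx : x ∈ HS Y z) :
    ∃ o, o ∉ Y ∧ Rch (HS Y z) x o := by
  have Z := (s1_iff hY).1 h
  have : IsCoc Y z := ⟨Z.coc⟩
  obtain ⟨y, h1, h2, h3⟩ := hx
  have q : Ch.pr x y h2 ∈ Mx Y z := ⟨by simpa using h1, by simpa using h3⟩
  have l : cel (mx_qe subset_rfl q) ∈ LA Y z := by rw [la_eq hY]; exact q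
  obtain ⟨p, p1, r, r1, r2⟩ := hs.noCl _ (isCmp_cmp l)
  have m : ∀ p : Lv Y z, (Pt30.ch p).bot ∈ HS Y z := fun p => by
    obtain ⟨u, u1, u2⟩ := (dom_up hY).1 p.2.1
    have := Z.add u1 p.1.1.bot_le_top u2 le_rfl
    have := Z.nn u1 u2 le_rfl
    have := (ch_mem p).2
    exact ⟨u, u1, p.1.1.bot_le_top.trans u2, by simp only [Pt30.ch] at *; omega⟩
  have s : ∀ a b : Lv Y z, a ≤ b → Rch (HS Y z) (Pt30.ch a).bot (Pt30.ch b).bot := fun a b j =>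
    Rch.of_cm (m a) (m b) (Or.inr (Ch.bot_anti (Z.ch_le.2 j)))
  refine ⟨(Pt30.ch r).bot, fun j => r1 ⟨_, r.1.1.bot_mem, j⟩, ?_⟩
  simpa using (p1.2.map (f := fun p => (Pt30.ch p).bot) fun a _ b _ j => s a b j).trans
    (s r p r2).symm

/-- a maximal surface with a two sided shadow -/
structure Hs (Y : Set P) (z : P → P → ℤ) : Prop where
  rg : Rg Y
  bnd : Bnd ℤ Y
  s1 : S1 Y z
  sf : Sf Y z
  max : Max ⟨P, Y⟩ z
  mf : MfIn (HS Y z) Y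
  l : ∀ j, j = 0 ∨ j = 1 → ∀ x ∈ HS Y z ∩ Y, Ctr {y | (y ∉ HS Y z ∧ z x y = j) ∧ x ≤ y}
  b : ∀ x, x ∉ Y → ∀ y ∈ Y, x ≤ y → 0 < z x y → ∃ u b, b ∉ Y ∧ x ≤ b ∧ b ≤ u ∧ 0 < z x b ∧
    Rch {a | a ∈ Y ∧ x ≤ a ∧ 0 < z x a} y u

theorem Hs.sd (h : Hs Y z) : Hs (Ch.top ⁻¹' Y : Set (Ch P)) (pb Ch.top z) where
  rg := rg_sd h.rg
  bnd := Bnd.sd h.rg.up.ordConnected h.rg.nice h.bnd
  s1 := Dd39.s1_pre (Desc.sd (lv0 P)) h.s1
  sf := (Desc.sd ⟨P, Y⟩).sf h.sf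
  max := h.max.desc (Desc.sd ⟨P, Y⟩)
  mf := hs_sd (Y := Y) ▸ mfIn_sd (hs_low h.s1) h.mf
  l j hj c hc := by
    rw [hs_sd] at hc ⊢
    convert Pt30.ctr_over (V := {y | y ∉ HS Y z ∧ z c.top y = j}) (fun _ => True) trivial
      (h.l j hj c.top hc) using 1
    exact Set.ext fun d => ⟨fun k => ⟨k.2, k.1, trivial⟩, fun k => ⟨k.2.1, k.1⟩⟩
  b c hc d hd l k := by
    obtain ⟨u, b, a1, a2, a3, a4, a5⟩ := h.b _ hc _ hd (Ch.top_mono l) k
    have m0 : d.top ∈ {a | a ∈ Y ∧ c.top ≤ a ∧ 0 < z c.top a} := ⟨hd, Ch.top_mono l, k⟩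
    have m := a5.mem m0
    have s : ∀ e : Ch P, c ≤ e → e.top ∈ {a | a ∈ Y ∧ c.top ≤ a ∧ 0 < z c.top a} →
        e ∈ {a | a ∈ (Ch.top ⁻¹' Y : Set (Ch P)) ∧ c ≤ a ∧ 0 < pb Ch.top z c a} :=
      fun e i j => ⟨j.1, i, j.2.2⟩
    have r := a5.ind (p := fun t => ∀ e : Ch P, c ≤ e → e.top = t →
        Rch {a | a ∈ (Ch.top ⁻¹' Y : Set (Ch P)) ∧ c ≤ a ∧ 0 < pb Ch.top z c a} d e)
      (fun e i j => ?_) fun x hx y hy i => ?_
    · exact ⟨tp (tp c b a2) u (by simpa using a3), tp c b a2, by simpa using a1, le_tp _ _ _,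
        le_tp _ _ _, by simpa [pb] using a4, r _ ((le_tp _ _ _).trans (le_tp _ _ _)) (by simp)⟩
    · have t : tp c d.top (Ch.top_mono l) ∈ {a | a ∈ (Ch.top ⁻¹' Y : Set (Ch P)) ∧ c ≤ a ∧
          0 < pb Ch.top z c a} := s _ (le_tp _ _ _) (by rwa [top_tp])
      exact (Rch.of_cm (s d l m0) t (Or.inr (tp_le l d.top_mem))).trans
        (Rch.of_cm t (s e i (j ▸ m0)) (Or.inl (tp_le i (j ▸ e.top_mem))))
    · have t : ∀ v (hv : v ∈ {a | a ∈ Y ∧ c.top ≤ a ∧ 0 < z c.top a}), ∀ e : Ch P, c ≤ e →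
          e.top ∈ {a | a ∈ Y ∧ c.top ≤ a ∧ 0 < z c.top a} → v ∈ e.1 → Rch {a | a ∈
          (Ch.top ⁻¹' Y : Set (Ch P)) ∧ c ≤ a ∧ 0 < pb Ch.top z c a} (tp c v hv.2.1) e :=
        fun v hv e i j n => Rch.of_cm (s _ (le_tp _ _ _) (by simpa using hv)) (s e i j)
          (Or.inl (tp_le i n))
      have e0 : c ≤ tp (tp c x hx.2.1) y (by simpa using i) := (le_tp _ _ _).trans (le_tp _ _ _)
      have a := t x hx _ e0 (by simpa using hy) (by simp)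
      have b := t y hy _ e0 (by simpa using hy) (by simp)
      exact ⟨fun n e p q => (((n _ (le_tp _ _ _) (by simp)).trans a).trans b.symm).trans
          (t y hy e p (q ▸ hy) (q ▸ e.top_mem)),
        fun n e p q => (((n _ (le_tp _ _ _) (by simp)).trans b).trans a.symm).trans
          (t x hx e p (q ▸ hx) (q ▸ e.top_mem))⟩

theorem Hs.pre (h : Hs Y z) {t : St} {f : t.P → P} (k : Tw P t f) : Hs (f ⁻¹' Y) (pb f z) :=
  Dd39.tw_ind k (p := fun _ f => Hs (f ⁻¹' Y) (pb f z)) h fun _ _ _ ih => ih.sd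

/-- a piece that does not touch the boundary stays inside -/
theorem Hs.inside (h : Hs Y z) {G C : Set (Ch P)} (hG : ∀ c ∈ G, c.bot ∈ Y)
    (hC : IsCmp (Mx Y z \ G) C) (hT : ¬ Tc Y z C) {c : Ch P} (hc : c ∈ C) : c.bot ∈ Y := by
  by_contra n
  have Z := (s1_iff h.rg.up).1 h.s1
  have m := (hC.sub hc).1
  obtain ⟨u, b, a1, a2, a3, a4, a5⟩ := h.b _ n _ m.1 c.bot_le_top m.2
  have s : ∀ d : Ch P, d.bot = c.bot → d.top ∈ {a | a ∈ Y ∧ c.bot ≤ a ∧ 0 < z c.bot a} →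
      d ∈ Mx Y z \ G := fun d i j => ⟨⟨j.1, i ▸ j.2.2⟩, fun k => n (i ▸ hG d k)⟩
  have p : ∀ v (hv : v ∈ {a | a ∈ Y ∧ c.bot ≤ a ∧ 0 < z c.bot a}), Ch.pr _ v hv.2.1 ∈ Mx Y z \ G :=
    fun v hv => s _ (by simp) (by simpa using hv)
  have hu := a5.mem ⟨m.1, c.bot_le_top, m.2⟩
  have r := a5.ind (p := fun t => ∀ l : c.bot ≤ t, Ch.pr _ t l ∈ C)
    (fun l => hC.clopen hc (p _ ⟨m.1, l, m.2⟩) (Or.inr (Ch.pr_le _ c.bot_mem c.top_mem)))
    fun x hx y hy i => by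
      have t := s (Ch.tr _ x y hx.2.1 i) (Ch.bot_tr _ _) (by rwa [Ch.top_tr])
      have a : Ch.pr _ x hx.2.1 ≤ Ch.tr _ x y hx.2.1 i :=
        Ch.pr_le _ (by simp [Ch.mem_tr]) (by simp [Ch.mem_tr])
      have b : Ch.pr _ y hy.2.1 ≤ Ch.tr _ x y hx.2.1 i :=
        Ch.pr_le _ (by simp [Ch.mem_tr]) (by simp [Ch.mem_tr])
      exact ⟨fun k _ => hC.clopen (hC.clopen (k _) t (Or.inl a)) (p y hy) (Or.inr b),
        fun k _ => hC.clopen (hC.clopen (k _) t (Or.inl b)) (p x hx) (Or.inr a)⟩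
  exact hT ⟨Ch.tr _ b u a2 a3, hC.clopen (r hu.2.1) (s _ (Ch.bot_tr _ _) (by rwa [Ch.top_tr]))
    (Or.inl (Ch.pr_le _ (by simp [Ch.mem_tr]) (by simp [Ch.mem_tr]))), c.bot,
    by simp [Ch.mem_tr], b, by simp [Ch.mem_tr], a2, a1, a4⟩

end Crest.Agent.X212.Hp13
end

-- ▼ part X212/Hp13/Rsl2
section

/-!
# X212 / Hp13 (helper13): the surface `HS` under a maximal surface is incompressible
-/

set_option autoImplicit false
set_option linter.unusedSectionVars false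

open Finset Classical

namespace Crest.Agent.X212.Hp13

open Crest.Agent.X212.Alg36 Cut21
open Pt30 hiding Dsc
open Crest.Agent.X212.Hk
open Kh11 (WS sctr_min)

variable {P : Type} [PartialOrder P] [Fintype P] {X Y : Set P} {z w : P → P → ℤ} {D : Set (Ch P)}

theorem mfIn_ca' (hX : IsUpperSet X) (hM : Mf 3 X) (hw : S1 X w) : MfIn (mx w) (CA X w) := by
  have z := (s1_iff hX).1 hw
  have : IsCoc X w := ⟨z.coc⟩
  have q : ∀ c ∈ CA X w, ∀ e ∈ mx w, Cm c e → e ∈ Qe X w := fun c k e l m =>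
    ⟨m.elim (fun j => dom_top (hX (Ch.top_mono j) k.1)) (dom_top k.1).mono, l⟩
  exact mf_img (f := fun p : Lv X w => (⟨Pt30.ch p, (ch_mem p).2⟩ : mx w)) (fun _ _ => z.ch_le)
    (fun a k => ⟨cel (q _ k _ a.2 Cm.rfl), k, rfl⟩)
    (fun a k x l => ⟨cel (q _ k _ x.2 l), rfl⟩) (z.mf hM (S := CA X w) subset_rfl)

/-- the boundary curve of `D` -/
def Bc (H : Set P) (w : P → P → ℤ) (D : Set (Ch P)) : Set (Ch P) :=
  {e | e ∈ Cv H w ∧ ∃ c ∈ D, e ≤ c}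

/-- a test disc -/
structure Td (Y : Set P) (z : P → P → ℤ) (X : Set P) (w : P → P → ℤ) (D : Set (Ch P)) :
    Prop extends Hs Y z, Inn (HS Y z) X w D where
  up : IsUpperSet X
  sub : X ⊆ Y
  sw : S1 X w

namespace Td

variable (h : Td Y z X w D)
include h

theorem low : IsLowerSet (HS Y z) := hs_low h.s1

theorem ca {c : Ch P} (hc : c ∈ D) : c ∈ CA X w := (h.cmp.sub hc).1

theorem nt {c : Ch P} (hc : c ∈ D) : c.top ∉ HS Y z := fun k =>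
  (h.cmp.sub hc).2 ((mem_cv h.low).2 ⟨k, (h.ca hc).2⟩)

theorem mem {c d : Ch P} (hc : c ∈ D) (h1 : d ∈ CA X w) (h2 : d.top ∉ HS Y z) (k : Cm c d) :
    d ∈ D := h.cmp.clopen hc ⟨h1, fun j => h2 (j.1 _ d.top_mem)⟩ k

theorem upD : IsUpperSet D := fun _ _ l k => h.mem k (h.sw.ca_up h.up l (h.ca k))
  (fun j => h.nt k (h.low (Ch.top_mono l) j)) (Or.inl l)

theorem bca {e : Ch P} (he : e ∈ Bc (HS Y z) w D) : e ∈ CA X w :=
  let ⟨a, c, b, l⟩ := he; ⟨h.int c b e l a.2, a.2⟩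

omit h in
theorem bh {e : Ch P} (he : e ∈ Bc (HS Y z) w D) : e.top ∈ HS Y z := he.1.1 _ e.top_mem

theorem face {q c : Ch P} (hc : c ∈ D) (l : q ≤ c) (k : 0 < w q.bot q.top) (n : q ∉ D) :
    q ∈ Bc (HS Y z) w D :=
  ⟨(mem_cv h.low).2 ⟨by_contra fun j => n (h.mem hc ⟨h.int c hc q l k, k⟩ j (Or.inr l)), k⟩, c, hc, l⟩

/-- the disc lies on one side -/
theorem side : ∃ j, (j = 0 ∨ j = 1) ∧ ∀ e ∈ Bc (HS Y z) w D, ∀ c ∈ D, e ≤ c → z e.top c.top = j := by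
  obtain ⟨c, hc, e, he, l⟩ := h.ne
  have Z := (s1_iff h.up).1 h.sw
  have y : ∀ c ∈ D, c.top ∈ Y := fun c k => h.sub (h.ca k).1
  have qe : ∀ e ∈ Bc (HS Y z) w D, e ∈ Qe X w ∧ e ∉ D := fun e k =>
    ⟨mx_qe subset_rfl (h.bca k), fun j => h.nt j (bh k)⟩
  refine ⟨_, h.s1.cases (sub_cl (y c hc)) (Ch.top_mono l), fun e' he' c' hc' l' =>
    Z.rim (h.rg.mf.mono h.sub) (fun _ => h.ca) h.upD h.cmp.conn h.eu.ge (fun q c => z q.top c.top)
      (fun q _ _ c k c' j j' => ?_) (fun q a n c k q' _ j j' => ?_) (qe e' he').1 (qe e' he').2 hc'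
      l' (qe e ⟨he, c, hc, l⟩).1 (qe e ⟨he, c, hc, l⟩).2 hc l⟩
  · have m := y _ (h.upD j' k)
    simp only [h.s1.add (sub_cl m) (Ch.top_mono j) (Ch.top_mono j'),
      hs_from h.s1 (h.nt k) m (Ch.top_mono j'), add_zero]
  · simp only [h.s1.add (sub_cl (y c k)) (Ch.top_mono j) (Ch.top_mono j'),
      hs_into h.s1 (bh (h.face k j' a.2 n)) (Ch.top_mono j), zero_add]

variable {j : ℤ} (hj : j = 0 ∨ j = 1)
  (hs : ∀ e ∈ Bc (HS Y z) w D, ∀ c ∈ D, e ≤ c → z e.top c.top = j)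
include hj hs

theorem ctr_ov {e : Ch P} (he : e ∈ Bc (HS Y z) w D) :
    Ctr {c | e ≤ c ∧ c.top ∈ {y | y ∉ HS Y z ∧ z e.top y = j} ∧ True} :=
  Pt30.ctr_over (fun _ => True) trivial (h.l j hj _ ⟨bh he, h.sub (h.bca he).1⟩)

theorem ovr {e c : Ch P} (he : e ∈ Bc (HS Y z) w D) (l : e ≤ c) (h1 : c.top ∉ HS Y z)
    (h2 : z e.top c.top = j) : c ∈ D := by
  obtain ⟨d, hd, l'⟩ := he.2
  exact ((h.ctr_ov hj hs he).conn d ⟨l', ⟨h.nt hd, hs e he d hd l'⟩, trivial⟩ c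
    ⟨l, ⟨h1, h2⟩, trivial⟩).ind (p := (· ∈ D)) hd fun a ha b _ k => ⟨h.upD k, fun i =>
      h.mem i (h.sw.ca_up h.up ha.1 (h.bca he)) ha.2.1.1 (Or.inr k)⟩

theorem bc_up {e c : Ch P} (he : e ∈ Bc (HS Y z) w D) (l : e ≤ c) (h1 : c.top ∈ HS Y z) :
    c ∈ Bc (HS Y z) w D := by
  have m := h.sw.ca_up h.up l (h.bca he)
  obtain ⟨y, ⟨y1, y2⟩, y3⟩ := (h.l j hj _ ⟨h1, h.sub m.1⟩).ne
  refine ⟨(mem_cv h.low).2 ⟨h1, m.2⟩, tp c y y3, h.ovr hj hs he (l.trans (le_tp _ _ _))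
    (by rwa [top_tp]) ?_, le_tp _ _ _⟩
  rw [top_tp, h.s1.add (sub_cl (h.rg.up y3 (h.sub m.1))) (Ch.top_mono l) y3,
    hs_into h.s1 h1 (Ch.top_mono l), zero_add, y2]

/-- from the disc on the level set to the disc on `HS` -/
theorem fin {C : Set (Ch (Ch P))}
    (hC : IsCmp (Mx (Ch.top ⁻¹' Y) (pb Ch.top z) \ Ch.bot ⁻¹' Bc (HS Y z) w D) C)
    (hT : ¬ Tc (Ch.top ⁻¹' Y) (pb Ch.top z) C) (h1 : eu C = 1) : Bds (HS Y z) Y (pc w D) := by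
  have H1 := h.toHs.sd
  set W1 : Set (Ch P) := {c | c.top ∈ HS Y z ∩ Y ∧ c ∉ Bc (HS Y z) w D} with hW
  have sT : C ⊆ {K | K ∈ Mx (Ch.top ⁻¹' Y) (pb Ch.top z) ∧ K.bot ∈ W1} := fun K k =>
    have m := hC.sub k
    ⟨m.1, ⟨⟨_, m.1.1, Ch.top_mono K.bot_le_top, m.1.2⟩,
      H1.inside (fun _ a => h.sub (h.bca a).1) hC hT k⟩, m.2⟩
  have ws := ws_hs (W := W1) H1.s1 H1.rg.up (fun c k => by rw [hs_sd]; exact k.1)
    fun c k => H1.l 1 (Or.inr rfl) c (by rw [hs_sd]; exact k.1)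
  obtain ⟨V, v1, v2⟩ := ws.isCmp_ex (isCmp_sub hC sT fun _ k => ⟨k.1, k.2.2⟩)
  have euV : eu V = 1 := by
    rw [← h1, v2]; exact (ws.restr (Kh11.clo_cmp v1)).eu_eq.symm
  have vl : IsLowerSet V := fun c c' l k => by
    obtain ⟨y, ⟨-, y2⟩, y3⟩ := (h.l 1 (Or.inr rfl) _ (v1.sub k).1).ne
    have yY := h.rg.up y3 (v1.sub k).1.2
    have m : Mt W1 (Ch.pr c _ (le_tp c y y3)) := ⟨c, by simp, v1.sub k⟩
    have a : Ch.pr c _ (le_tp c y y3) ∈ C := by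
      rw [v2]
      exact ⟨⟨⟨by simpa using yY, by simp [pb, y2]⟩, by simpa using v1.sub k⟩,
        v1.clopen k (tw_mem m).2 (Ch.cm _ (by simp) (tw_mem m).1)⟩
    have t : Ch.pr c _ (le_tp c y y3) ≤ Ch.tr c' c _ l (le_tp c y y3) :=
      Ch.pr_le _ (by simp [Ch.mem_tr]) (by simp [Ch.mem_tr])
    have b := (sT (hC.clopen a ⟨mx_upper ((s1_iff H1.rg.up).1 H1.s1) H1.rg.up subset_rfl t
      (hC.sub a).1, fun i => (v1.sub k).2 (h.bc_up hj hs (by rwa [Set.mem_preimage, Ch.bot_tr] at i)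
        l (v1.sub k).1.1)⟩ (Or.inl t))).2
    rw [Ch.bot_tr] at b
    exact v1.clopen k b (Or.inr l)
  let W : Set P := {x | Ch.pt x ∈ V}
  have wo : ∀ x ∈ W, x ∈ HS Y z ∩ Y := fun x a => by simpa using (v1.sub a).1
  have edge : ∀ u v (l : u ≤ v), v ∈ HS Y z → Ch.pr u v l ∉ Bc (HS Y z) w D → (u ∈ W ↔ v ∈ W) :=
    fun u v l a n => by
      have k : v ∈ Y → Ch.pr u v l ∈ W1 := fun b => ⟨by simpa using ⟨a, b⟩, n⟩
      exact ⟨fun c => vl (Ch.pt_le.2 (by simp)) (v1.clopen c (k (h.rg.up l (wo u c).2))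
        (Or.inl (Ch.pt_le.2 (by simp)))), fun c => vl (Ch.pt_le.2 (by simp))
          (v1.clopen c (k (wo v c).2) (Or.inl (Ch.pt_le.2 (by simp))))⟩
  have Z := (s1_iff h.up).1 h.sw
  have cst : ∀ e ∈ Bc (HS Y z) w D, ∀ e' ∈ Bc (HS Y z) w D,
      (e.bot ∈ W ↔ e'.bot ∈ W) ∧ (e.top ∈ W ↔ e'.top ∈ W) := fun e a e' b =>
    (h.fc e a e' b).ind (p := fun t => (e.bot ∈ W ↔ t.bot ∈ W) ∧ (e.top ∈ W ↔ t.top ∈ W))
      ⟨Iff.rfl, Iff.rfl⟩ fun s c t d l => by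
        have m := dom_top (h.bca d).1
        rw [edge _ _ (Ch.bot_anti l) (c.1.1 _ s.bot_mem) fun i => by
            simpa [Z.bot_bot m l c.1.2] using i.1.2,
          edge _ _ (Ch.top_mono l) (bh d) fun i => by simpa [Z.top_top m l c.1.2] using i.1.2]
  obtain ⟨c₀, hc₀⟩ := v1.ne
  have x₀ : c₀.top ∈ W := vl (Ch.pt_le.2 c₀.top_mem) hc₀
  obtain ⟨u, v, l, -, hv, n⟩ : ∃ u v, u ≤ v ∧ u ∈ HS Y z ∧ v ∈ HS Y z ∧ ¬ (u ∈ W ↔ v ∈ W) := by
    by_contra k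
    obtain ⟨o, o1, o2⟩ := hs_out h.rg.up h.s1 h.sf (wo _ x₀).1
    exact o1 (wo o (o2.ind (p := (· ∈ W)) x₀ fun a ha b hb l =>
      by_contra fun i => k ⟨a, b, l, ha, hb, i⟩)).2
  have g : Ch.pr u v l ∈ Bc (HS Y z) w D := by_contra fun i => n (edge u v l hv i)
  have pat : ∀ e ∈ Bc (HS Y z) w D, (e.bot ∈ W ↔ u ∈ W) ∧ (e.top ∈ W ↔ v ∈ W) := fun e a => by
    simpa using cst e a _ g
  have VW : V = Cq W := Set.ext fun c => ⟨fun a x hx => vl (Ch.pt_le.2 hx) a, fun a =>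
    v1.clopen (a _ c.top_mem) ⟨wo _ (a _ c.top_mem), fun g => n (iff_of_true
      ((pat c g).1.1 (a _ c.bot_mem)) ((pat c g).2.1 (a _ c.top_mem)))⟩
      (Or.inl (Ch.pt_le.2 c.top_mem))⟩
  have cW : Conn W := fun x a y b => by
    simpa using (v1.conn _ a _ b).map (F := W) (f := Ch.top) fun c hc d hd l =>
      Rch.of_cm (vl (Ch.pt_le.2 c.top_mem) hc) (vl (Ch.pt_le.2 d.top_mem) hd)
        (Or.inl (Ch.top_mono l))
  have val : WS (Subtype.val ⁻¹' W : Set (HS Y z)) W Subtype.val :=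
    WS.of_iso (fun _ k => k) (fun y k => ⟨⟨y, (wo y k).1⟩, k, rfl⟩) fun _ _ _ _ => Iff.rfl
  have cW' := val.conn_iff.2 cW
  have sW : (Subtype.val ⁻¹' W : Set (HS Y z)) ⊆ Subtype.val ⁻¹' Y := fun x k => (wo _ k).2
  have one : ∀ x ∈ HS Y z, ∀ y ∈ HS Y z, ∀ l : x ≤ y,
      (pc w D x y = 1 ∧ (x ∈ W ↔ u ∈ W) ∧ (y ∈ W ↔ v ∈ W)) ∨ (pc w D x y = 0 ∧ (x ∈ W ↔ y ∈ W)) :=
    fun x a y b l => by
      by_cases k : 0 < w x y ∧ ∃ c ∈ D, x ∈ c.1 ∧ y ∈ c.1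
      · obtain ⟨c, c1, c2, c3⟩ := k.2
        exact Or.inl ⟨if_pos k, by
          simpa using pat (Ch.pr x y l) ⟨⟨by simpa using ⟨a, b⟩, by simpa using k.1⟩, c, c1,
            Ch.pr_le _ c2 c3⟩⟩
      · exact Or.inr ⟨if_neg k, edge x y l b fun ⟨i, c, c1, c2⟩ =>
          k ⟨by simpa using i.2, c, c1, c2 (by simp), c2 (by simp)⟩⟩
  have hu := h.low l hv
  refine ⟨W, fun x a => (wo x a).1, fun x a => (wo x a).2, val.ctr_iff.1
    (Mf.ctr_of_eu h.mf sW cW' ?_ (by rw [val.eu_eq, ← eu_cq, ← VW, euV])), ?_⟩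
  · by_cases k : u ∈ W
    · exact Sf30.esc_of (a := ⟨u, hu⟩) (x := ⟨v, hv⟩) sW cW' k (fun i => n (iff_of_true k i))
        (Or.inl l)
    · exact Sf30.esc_of (a := ⟨v, hv⟩) (x := ⟨u, hu⟩) sW cW'
        (by_contra fun i => n (iff_of_false k i)) k (Or.inr l)
  · by_cases k : u ∈ W
    · have k' : v ∉ W := fun i => n (iff_of_true k i)
      refine Or.inr fun x a y b l => ?_
      rcases one x a y b l with ⟨e, p, q⟩ | ⟨e, p⟩ <;> rw [e, Pi.neg_apply, Pi.neg_apply]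
      · simp [cb, ind_of_mem (p.2 k), ind_of_not fun i => k' (q.1 i)]
      · rw [cb_ind_eq_zero.2 p, neg_zero]
    · have k' : v ∈ W := by_contra fun i => n (iff_of_false k i)
      refine Or.inl fun x a y b l => ?_
      rcases one x a y b l with ⟨e, p, q⟩ | ⟨e, p⟩ <;> rw [e]
      · exact (cb_ind_eq_one.2 ⟨fun i => k (p.1 i), q.2 k'⟩).symm
      · exact (cb_ind_eq_zero.2 p).symm

theorem g_low (p : Ch (Ch P)) (hp : p ∈ Mx (Ch.top ⁻¹' Y) (pb Ch.top z))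
    (k : p ∈ Ch.bot ⁻¹' Bc (HS Y z) w D) (q : Ch (Ch P)) (hq : q ∈ Mx (Ch.top ⁻¹' Y) (pb Ch.top z))
    (l : q ≤ p) : q ∈ Ch.bot ⁻¹' Bc (HS Y z) w D :=
  h.bc_up hj hs k (Ch.bot_anti l) ⟨_, hq.1, Ch.top_mono q.bot_le_top, hq.2⟩

omit hj hs

/-- the disc lies below -/
theorem below (hs : ∀ e ∈ Bc (HS Y z) w D, ∀ c ∈ D, e ≤ c → z e.top c.top = 0) :
    Bds (HS Y z) Y (pc w D) := by
  have hj : (0 : ℤ) = 0 ∨ (0 : ℤ) = 1 := Or.inl rfl
  have H1 := h.toHs.sd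
  have Z := (s1_iff H1.rg.up).1 H1.s1
  have i : IsCoc (Ch.top ⁻¹' Y) (pb Ch.top z) := ⟨Z.coc⟩
  have ca : D ∪ Bc (HS Y z) w D ⊆ CA X w := fun _ k => k.elim h.ca h.bca
  have ws : WS D (D ∪ Bc (HS Y z) w D) id := WS.of_ge (fun _ => Or.inl) (fun _ _ _ _ l => l)
    fun e he => he.elim (fun k => sctr_min ⟨k, le_rfl⟩ fun _ m => m.2) fun k => by
      convert h.ctr_ov hj hs k using 1
      exact Set.ext fun c => ⟨fun a => ⟨a.2, ⟨h.nt a.1, hs e k c a.1 a.2⟩, trivial⟩,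
        fun a => ⟨h.ovr hj hs k a.1 a.2.1.1 a.2.1.2, a.1⟩⟩
  have y : ∀ x ∈ D ∪ Bc (HS Y z) w D, ∀ c, x ≤ c → c.top ∈ Y := fun x k c l =>
    h.rg.up (Ch.top_mono l) (h.sub (ca k).1)
  obtain ⟨z', z1, z2, -, -, z3⟩ := swap_up (Q := mx w) (E := D ∪ Bc (HS Y z) w D) H1.rg.mf H1.bnd
    ⟨Mf.mono (mfIn_ca' h.up (h.rg.mf.mono h.sub) h.sw) fun _ k => ca k, fun x k => y x k x le_rfl,
      fun _ k _ l => (h.sw.ca_up h.up l (ca k)).2,
      fun c k x a l => k.elim (fun k => (Classical.em _).imp_right (h.face k l a)) fun k =>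
        let ⟨_, d, b, m⟩ := k
        Or.inr ⟨(mem_cv h.low).2 ⟨h.low (Ch.top_mono l) (bh k), a⟩, d, b, l.trans m⟩,
      ws.conn_iff.1 h.cmp.conn, by
        obtain ⟨c, hc, e, he, l⟩ := h.ne
        have g : e ∈ Bc (HS Y z) w D := ⟨he, c, hc, l⟩
        obtain ⟨u, ⟨u1, u2⟩, u3⟩ := (h.l 1 (Or.inr rfl) _ ⟨bh g, h.sub (h.bca g).1⟩).ne
        refine ⟨e, Or.inr g, tp e u u3, fun k => k.elim (fun k => ?_) fun k => ?_, le_tp _ _ _⟩
        · have := hs e g _ k (le_tp _ _ _)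
          rw [top_tp] at this; omega
        · exact u1 (by simpa using bh k)⟩
    (ws.eu_eq ▸ h.eu) H1.sf
    (fun x c k a n => by
      have g := a.resolve_left fun j => n (Or.inl (h.upD k.1 j))
      rcases h.s1.cases (sub_cl (y x a c k.1)) (Ch.top_mono k.1) with e | e
      · exact absurd (Or.inl (h.ovr hj hs g k.1 (fun j => n (Or.inr (h.bc_up hj hs g k.1 j))) e)) n
      · exact e.ge)
    fun x c k a b => a.elim (fun a' => hs_from h.s1 (h.nt a') (y x a c k.1) (Ch.top_mono k.1))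
      fun a' => b.elim (fun b => hs x a' c b k.1) fun b => hs_into h.s1 (bh b) (Ch.top_mono k.1)
  obtain ⟨C, c1, c2, c3⟩ := z3.resolve_left (H1.max _ _ Desc.refl z' z1 z2).not_gt i
  have e : LA (Ch.top ⁻¹' Y) (pb Ch.top z) \ CY _ _ (D ∪ Bc (HS Y z) w D) =
      LA _ _ \ Pt30.ch ⁻¹' (Ch.bot ⁻¹' Bc (HS Y z) w D) := Set.ext fun p => and_congr_right fun m =>
    not_congr ⟨fun k => k.1.resolve_left fun j => (ch_mem p).2.ne' (hs_from h.s1 (h.nt j)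
      (Alg36.mt_up H1.rg.up m) (Ch.top_mono p.1.1.bot_le_top)), fun k => ⟨Or.inr k, Z.lv0 p⟩⟩
  obtain ⟨C, d1, d2, d3⟩ := fam_of Z H1.rg.up H1.rg.mf (h.g_low hj hs) (e ▸ c1) c2 c3
  exact h.fin hj hs d1 d2 d3

/-- the disc lies above -/
theorem above (hs : ∀ e ∈ Bc (HS Y z) w D, ∀ c ∈ D, e ≤ c → z e.top c.top = 1) :
    Bds (HS Y z) Y (pc w D) := by
  have hj : (1 : ℤ) = 0 ∨ (1 : ℤ) = 1 := Or.inr rfl
  have H1 := h.toHs.sd
  have H2 := H1.sd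
  have Z1 := (s1_iff H1.rg.up).1 H1.s1
  have Z := (s1_iff H2.rg.up).1 H2.s1
  have i : IsCoc (Ch.top ⁻¹' (Ch.top ⁻¹' Y)) (pb Ch.top (pb Ch.top z)) := ⟨Z.coc⟩
  have sD : D ⊆ mx w := fun _ k => (h.ca k).2
  have tD : ∀ K ∈ Ce (mx w) D, K.top ∈ D := fun K k => Alg36.mt_up h.upD k.2
  obtain ⟨z', z1, z2, -, -, z3⟩ := swap_low H2.rg.mf H2.bnd
    (low_ce (A := Ch.top ⁻¹' Y) (mfIn_ca' h.up (h.rg.mf.mono h.sub) h.sw) (fun _ k => h.sub k.1) sD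
      (fun _ k _ _ l => h.ca (h.upD l k)) h.cmp.conn (by
        obtain ⟨c, hc, e, he, l⟩ := h.ne
        exact ⟨e, he.2, fun k => h.nt k (he.1 _ e.top_mem), c, hc, Or.inl l⟩))
    ((eu_ce sD).trans h.eu) H2.sf
    (fun x c k n a => by
      have q := lower_cq _ k.1 a.1
      exact (hs _ (h.face (tD c a) (Ch.top_mono k.1) (q _ x.top_mem)
        fun j => n ⟨q, _, x.top_mem, j⟩) _ (tD c a) (Ch.top_mono k.1)).ge)
    fun x c k a b => hs_from h.s1 (h.nt (tD x a)) (h.sub (h.ca (tD c b)).1)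
      (Ch.top_mono (Ch.top_mono k.1))
  obtain ⟨C, c1, c2, c3⟩ := z3.resolve_left (H2.max _ _ Desc.refl z' z1 z2).not_gt i
  have e : CW (Ch.top ⁻¹' (Ch.top ⁻¹' Y)) (pb Ch.top (pb Ch.top z)) (Ce (mx w) D) =
      Pt30.ch ⁻¹' (Ch.top ⁻¹' Ce (mx w) D) := Set.ext fun p => ⟨fun k => k.1, fun k => ⟨k, by
    have := Z.le _ _ p.2.1.bt
    have := p.2.2
    omega⟩⟩
  obtain ⟨C, d1, d2, d3⟩ := fam_of Z H2.rg.up H2.rg.mf (fun p _ k q b l => by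
    have t := Ch.top_mono l
    have c := lower_cq _ t k.1
    exact ⟨c, _, q.top.top_mem, by_contra fun n => b.2.ne' (hs_into h.s1 (bh (h.face (tD _ k)
      (Ch.top_mono t) (c _ q.top.top_mem) n)) (Ch.top_mono (Ch.top_mono q.bot_le_top)))⟩)
    (e ▸ c1) c2 c3
  have k : ∀ K ∈ Mx (Ch.top ⁻¹' Y) (pb Ch.top z), K ∈ Ce (mx w) D ↔ K.bot ∈ Bc (HS Y z) w D :=
    fun K m => ⟨fun a => h.face (tD K a) K.bot_le_top (a.1 _ K.bot_mem) fun j => m.2.ne'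
      (hs_from h.s1 (h.nt j) m.1 (Ch.top_mono K.bot_le_top)), fun a =>
      ⟨fun x hx => (h.sw.ca_up h.up (Ch.bot_le hx) (h.bca a)).2, _, K.top_mem,
        h.ovr hj hs a K.bot_le_top (fun j => m.2.ne' (hs_into h.s1 j (Ch.top_mono K.bot_le_top)))
          ((h.s1.cases (sub_cl m.1) (Ch.top_mono K.bot_le_top)).resolve_left m.2.ne')⟩⟩
  have e' : Mx (Ch.top ⁻¹' (Ch.top ⁻¹' Y)) (pb Ch.top (pb Ch.top z)) \ Ch.top ⁻¹' Ce (mx w) D =
      {C | C.top ∈ Mx (Ch.top ⁻¹' Y) (pb Ch.top z) \ Ch.bot ⁻¹' Bc (HS Y z) w D ∧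
        0 < pb Ch.top z C.bot.top C.top.top} := Set.ext fun C =>
    ⟨fun a =>
      have m : C.top ∈ Mx (Ch.top ⁻¹' Y) (pb Ch.top z) := ⟨a.1.1, Z1.pos (dom_top a.1.1)
        (C.bot_le_top C.bot.top_mem) C.top.top_mem (Ch.top_mono C.bot_le_top) a.1.2⟩
      ⟨⟨m, fun j => a.2 ((k _ m).2 j)⟩, a.1.2⟩,
    fun a => ⟨⟨a.1.1.1, a.2⟩, fun j => a.1.2 ((k _ a.1.1).1 j)⟩⟩
  rw [e'] at d1
  have ws := ws_tops Z1 (B := Mx (Ch.top ⁻¹' Y) (pb Ch.top z) \ Ch.bot ⁻¹' Bc (HS Y z) w D)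
    Set.sdiff_subset
  obtain ⟨B, b1, b2⟩ := ws.isCmp_ex d1
  refine h.fin hj hs b1 (fun ⟨K, a, x, x1, y, y1, l, n, m⟩ => d2 ?_)
    (by rw [← d3, b2]; exact (ws.restr (Kh11.clo_cmp b1)).eu_eq.symm)
  have p1 : Ch.pt x ≤ Ch.pr x y l := Ch.pt_le.2 (by simp)
  have p2 : Ch.pr x y l ≤ K := Ch.pr_le _ x1 y1
  refine ⟨Ch.tr _ _ K p1 p2, ?_, Ch.pt x, by simp [Ch.mem_tr], Ch.pr x y l, by simp [Ch.mem_tr], p1,
    by simpa using n, by simpa [pb] using m⟩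
  have := Z1.add (b1.sub a).1.1 l (Ch.le_top y1) le_rfl
  have := Z1.nn (b1.sub a).1.1 (Ch.le_top y1) le_rfl
  rw [b2]
  simp only [Set.mem_ofPred_eq, Ch.top_tr, Ch.bot_tr, Ch.top_pt]
  exact ⟨⟨b1.sub a, by omega⟩, a⟩

theorem bds : Bds (HS Y z) Y (pc w D) := by
  obtain ⟨j, rfl | rfl, k⟩ := h.side
  exacts [h.below k, h.above k]

end Td

theorem Hs.icP (h : Hs Y z) : IcP (HS Y z) Y := fun t f k X w D a b c d => by
  rw [← hs_pre k] at d ⊢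
  exact Td.bds ⟨h.pre k, d, a, b, c⟩

end Crest.Agent.X212.Hp13
end

-- ▼ part X212/Hp13/Rsl3
section

/-!
# X212 / Hp13 (helper13): `RslStmt`
-/

set_option autoImplicit false
set_option linter.unusedSectionVars false

open Finset Classical

namespace Crest.Agent.X212.Hp13

open Crest.Agent.X212.Alg36 Cut21
open Pt30 hiding Dsc
open Crest.Agent.X212.Hk
open Kh11 (WS sctr_min)
open Sup43 (inn_up inn_sub)

section
variable {P : Type} [PartialOrder P] [Fintype P] {A : Set P} {z u : P → P → ℤ}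

/-- in the frontier layer every sheet reaches the boundary -/
theorem tb_pp (hz : Coc A z) (hm : Mono A z) (hc : CondP A z)
    (off : ∀ x y, x ≤ y → y ∉ Yo A → u x y = z x y) {a o : P} {k : ℤ} (ha : a ∈ A) (ho : o ∉ A)
    (l : a ≤ o) (h0 : 0 ≤ k) (h1 : k < z a o) : Tb A u a o k := by
  obtain ⟨N, hN⟩ := (Set.finite_range fun p : P × P => z p.1 p.2).bddAbove
  obtain ⟨n, hn⟩ : ∃ n : ℕ, N - k ≤ n := ⟨(N - k).toNat, Int.self_le_toNat _⟩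
  have e : ∀ {x y o : P}, x ≤ y → y ≤ o → o ∉ A → u x y = z x y := fun l l' ho =>
    off _ _ l fun k => ho (inn_up l' k).1
  induction n generalizing a o k with
  | zero => have := hN ⟨(a, o), rfl⟩; simp only at this; omega
  | succ n ih =>
  have pp := hc a ha o ho l
  induction pp with
  | @sut x a o hx j =>
    exact (Tb.L (tri2 ha j l) h0 (by rwa [e l le_rfl ho]) rfl).2 (Tb.base hx ho)
  | @low x a o hx j i =>
    have := (tri2 ha j l).add hz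
    exact (Tb.L (tri2 ha j l) h0 (by rwa [e l le_rfl ho]) (by rw [e j l ho])).2
      (ih hx ho (j.trans l) (k := k + z x a) (by omega) (by omega) (by omega))
  | @up a b o hb j j' i _ r =>
    have := (tri1 ha j j').add hz
    exact (Tb.L (tri1 ha j j') h0 (by rw [e j' le_rfl ho]; omega) (by rw [e j j' ho]; omega)).1
      (r hb ho j' (by omega))
  | @dn a b o hb j i _ r =>
    have := (tri1 hb j l).add hz
    exact (Tb.L (tri1 hb j l) h0 (by rwa [e l le_rfl ho]) (by rw [e j l ho]; omega)).2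
      (r hb ho (j.trans l) (by omega))
  | @mv a o p hp j i _ r =>
    rcases i with i | i
    · have := (tri1 ha l i).add hz
      have := hm _ _ (tri1 ha l i).d23
      exact (Tb.R (tri1 ha l i) h0 (by rwa [e l le_rfl ho])).2 (r ha hp j (by omega))
    have := (tri1 ha j i).add hz
    by_cases c : k < z a p
    · exact (Tb.R (tri1 ha j i) h0 (by rwa [e j le_rfl hp])).1 (r ha hp j c)
    · exact (Tb.L (k := k - z a p) (tri1 ha j i) (by omega) (by rw [e i le_rfl ho]; omega)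
        (by rw [e j le_rfl hp]; omega)).1 (Tb.base hp ho)

/-- a competitor inside is a competitor -/
theorem sf_out' (hz : Coc A z) (hm : Mono A z) (hc : CondP A z) {g : P → ℤ}
    (hg : ∀ x, x ∉ Yo A → g x = 0) (h : Sf (Yo A) (z + cb g)) : Sf A (z + cb g) := by
  have off : ∀ x y, x ≤ y → y ∉ Yo A → (z + cb g) x y = z x y := fun x y l hy => by
    simp [cb, hg y hy, hg x fun k => hy (inn_up l k)]
  have top : ∀ x o k, x ≤ o → o ∉ A → 0 ≤ k → k < z x o → Tb A (z + cb g) x o k :=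
    fun x o k l ho h0 h1 => (Classical.em (x ∈ A)).elim (fun j => tb_pp hz hm hc off j ho l h0 h1)
      fun j => Tb.base j ho
  have base : ∀ x y k, x ≤ y → y ∉ Yo A → 0 ≤ k → k < (z + cb g) x y →
      Tb A (z + cb g) x y k := fun x y k l hy h0 h1 => by
    by_cases j : y ∈ A
    · obtain ⟨-, o, o1, o2⟩ : y ∈ Fr A := by_contra fun i => hy ⟨j, i⟩
      have := (tri2 j l o2).add hz
      have := hm _ _ (tri2 j l o2).d23
      have := off x y l hy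
      exact Tb.dnR (tri2 j l o2) h0 h1 (top x o k (l.trans o2) o1 h0 (by omega))
    · exact top x y k l j h0 (by rwa [off x y l hy] at h1)
  have tr : ∀ {x y w}, Tri (Yo A) x y w → Tri A x y w := fun ⟨h1, h2, a, ha, k⟩ =>
    ⟨h1, h2, a, ha.1, k⟩
  refine sf_iff.2 ⟨fun x y hp => ?_, hz.add (coc_cb g), fun x y k hp h0 h1 => ?_⟩ <;>
    by_cases hy : y ∈ Yo A
  · exact h.mono x y (Dp.of_right hy hp.le)
  · rw [off x y hp.le hy]; exact hm x y hp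
  · exact h.nc.ind h.coc h.mono (G := Tb A (z + cb g)) (fun x y k hp _ hy => base x y k hp.le hy)
      (fun _ _ _ _ t h0 h1 => Tb.R (tr t) h0 h1) (fun _ _ _ _ t h0 h1 => Tb.L (tr t) h0 h1 rfl)
      (Dp.of_right hy hp.le) h0 h1
  · exact base x y k hp.le hy h0 h1

theorem mf_loc {d : ℕ} (h : ∀ a ∈ A, Mf d {a}) : Mf d A :=
  have k : ∀ c : Ch P, Mt A c → ∃ a, Mf d {a} ∧ Mt {a} c := fun _ ⟨a, b, c⟩ => ⟨a, h a c, a, b, rfl⟩
  ⟨fun c m => let ⟨_, a, b⟩ := k c m; a.card_le c b, fun c m => let ⟨_, a, b⟩ := k c m; a.eul c b,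
    fun c m => let ⟨_, a, b⟩ := k c m; a.conn c b, fun c m => let ⟨_, a, b⟩ := k c m; a.pure c b⟩

end

theorem condP_desc {s t : St} {f : t.P → s.P} {z : s.P → s.P → ℤ} (d : Desc s t f)
    (hz : Coc s.A z) (h : CondP s.A z) : CondP t.A (pb f z) := by
  induction d with
  | refl => exact h
  | step d ih => exact condP_iff.2 (Ind26.CondU.sd (d.coc hz) (condP_iff.1 ih))

/-- a conditioned maximal surface is maximal inside -/
theorem max_yo {s : St} {z : s.P → s.P → ℤ} (hM : Mf 3 s.A) (hz : Sf s.A z) (hc : CondP s.A z)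
    (h : Max s z) : Max (s.at (Yo s.A)) z := by
  rintro t f d w hw ⟨g, g1, g2⟩
  have d' : Desc s (t.at (f ⁻¹' s.A)) f := d.at s.A
  have e : t.A = Yo (f ⁻¹' s.A) := d.A_eq.trans (Sup43.inn_desc d').symm
  have M : Mf 3 (f ⁻¹' s.A) := Alg36.Mf.desc hM d'
  have c1 : chi (f ⁻¹' s.A) (pb f z) = chi s.A z := d'.chi _
  have c2 := d.chi z
  rw [e] at hw g1 g2 c2 ⊢
  have k : chi (f ⁻¹' s.A) (pb f z + cb g) ≤ chi s.A z :=
    h (t.at (f ⁻¹' s.A)) f d' _ (sf_out' (d'.coc hz.coc) (d'.mono' hz.mono)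
      (condP_desc (s := s) d' hz.coc hc) g1 (Kh11.sf_congr hw g2.symm))
      (eqv_add_cb fun x hx => g1 x fun j => hx (inn_sub j))
  rw [chi_add, c1, chi_cb_sub (B := Yo (f ⁻¹' s.A)) M inn_sub g1] at k
  rw [chi_congr g2, chi_add, c2]
  omega

section
variable {t s' : St} {z : t.P → t.P → ℤ} {π : s'.P → t.P} (h : CutH t s' z π)
include h

theorem cut_nn {x y a : t.P} (ha : a ∈ t.A) (h1 : x ≤ y) (h2 : y ≤ a) : 0 ≤ z x y :=
  h.sf.mono _ _ (dp_hi ha h1 h2)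

theorem cut_le {x y a : t.P} (ha : a ∈ t.A) (h1 : x ≤ y) (h2 : y ≤ a) : z x y ≤ 1 :=
  h.jk x y ((Classical.em (y ∈ t.A)).imp id fun k => ⟨k, a, ha, h2⟩) h1

theorem cut_s1 : S1 (Yo t.A) z :=
  ⟨(coc_iff inn_up).2 (h.sf.coc.mono inn_sub), fun _ _ ⟨_, a, b⟩ l => cut_nn h a.1 l b,
    fun _ _ ⟨_, a, b⟩ l => cut_le h a.1 l b⟩

theorem cut_up {b : s'.P} (hb : b ∈ s'.A) {x : t.P} (l : π b ≤ x) : ∃ q, b ≤ q ∧ π q = x :=
  let ⟨q, h1, h2⟩ := h.cov.toLift.ex hb (Or.inl l)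
  ⟨q, h.cov.refl b hb b q Cm.rfl h1 (h2 ▸ l), h2⟩

/-- the inner part of the cut -/
theorem cut_inn {b : s'.P} : b ∈ Yo s'.A ↔ b ∈ s'.A ∧ π b ∈ Yo t.A ∧ π b ∉ HS (Yo t.A) z := by
  have mon := h.cov.toLift.mon
  refine ⟨fun k => ⟨k.1, ⟨h.cov.toLift.mem k.1, fun ⟨_, o, h1, h2⟩ => ?_⟩, fun ⟨u, _, h2, h3⟩ => ?_⟩,
    fun ⟨h1, h2, h3⟩ => ⟨h1, fun ⟨_, q, h4, h5⟩ => h4 ((h.cov.up b h1 q h5).2
      ⟨(inn_up (mon h5) h2).1, hs_from (cut_s1 h) h3 (inn_up (mon h5) h2) (mon h5)⟩)⟩⟩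
  · obtain ⟨q, l, rfl⟩ := cut_up h k.1 h2
    exact h1 (h.cov.toLift.mem (inn_up l k).1)
  · obtain ⟨q, l, rfl⟩ := cut_up h k.1 h2
    exact h3.ne' (h.cov.zero k.1 (inn_up l k).1 l)

theorem cut_mf : MfIn (HS (Yo t.A) z) (Yo t.A) := by
  have mon := h.cov.toLift.mon
  have g := Sup43.good_inn h.st'.toGood h.st'.thick
  have m := ((nmStmt s'.P).1 (Yo s'.A) ⟨inn_up, g.mf, g.nice⟩).1
  refine mf_loc fun ⟨x, hx⟩ hy => ?_
  obtain ⟨b, hb, rfl⟩ := h.cov.toLift.exA (inn_sub hy)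
  have ob : b ∈ Om (Yo s'.A) := fr_om h.st'.thick (fr_of hb fun k => ((cut_inn h).1 k).2.2 hx)
  have hs : ∀ q, Cm b q → q ∈ Om (Yo s'.A) → π q ∈ HS (Yo t.A) z := fun q k ⟨n, u, u1, u2⟩ =>
    k.elim (fun l => by_contra fun j => n ((cut_inn h).2
      ⟨h.st'.conv.out hb u1.1 ⟨l, u2⟩, inn_up (mon l) hy, j⟩)) fun l => hs_low (cut_s1 h) (mon l) hx
  refine mf_img (R := {q // Cm b q ∧ q ∈ Om (Yo s'.A)}) (B := {⟨b, Cm.rfl, ob⟩})
    (f := fun q => ⟨π q.1, hs _ q.2.1 q.2.2⟩)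
    (fun p q => ⟨h.cov.refl b hb _ _ p.2.1 q.2.1, fun l => mon l⟩)
    (by rintro _ rfl; exact ⟨_, rfl, rfl⟩) ?_
    (Mf.emb (f := fun q => (⟨q.1, q.2.2⟩ : Om (Yo s'.A))) (fun _ _ => Iff.rfl)
      (fun _ _ => by exact trivial) (by rintro _ rfl x k; exact ⟨⟨x.1, k, x.2⟩, rfl⟩) m)
  rintro _ rfl ⟨y, k⟩ l
  obtain ⟨q, q1, rfl⟩ := h.cov.toLift.ex hb l
  refine ⟨⟨q, q1, q1.elim (fun j => ?_) fun j => om_low inn_up j ob⟩, rfl⟩
  have a := (h.cov.up b hb q j).2 ⟨(inn_up (mon j) hy).1, hs_into (cut_s1 h) k (mon j)⟩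
  exact fr_om h.st'.thick (fr_of a fun i => ((cut_inn h).1 i).2.2 k)

theorem cut_lc {x y : t.P} (hy : y ∈ t.A) (l : x ≤ y) (k : 0 < z x y) :
    Ctr {a | a ∈ t.A ∧ x ≤ a ∧ z x a = 1} :=
  h.lc x 1 (Or.inr one_pos) ⟨y, hy, l, le_antisymm (cut_le h hy l le_rfl) k⟩

theorem cut_pinch {a u : t.P} (ha : a ∈ Fr t.A) (h4 : u ∈ t.A) (h5 : a ≤ u) (h6 : 0 < z a u) :
    ∃ b ∈ Fr t.A, a ≤ b ∧ z a b = 1 := by
  have mon := h.cov.toLift.mon
  obtain ⟨h1, o, h2, h3⟩ := ha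
  obtain ⟨a, hb, rfl⟩ := h.cov.toLift.exA h1
  obtain ⟨o, l, rfl⟩ := cut_up h hb h3
  obtain ⟨u, m, rfl⟩ := cut_up h hb h5
  by_contra k
  have := (h.st'.thick.out a hb u ⟨fun t => h6.ne' (h.cov.zero hb t m), m⟩ o
    ⟨fun t => h2 (h.cov.toLift.mem t), l⟩).ind (p := fun q => π q ∈ t.A) h4 fun x hx y hy r =>
      ⟨fun t => by_contra fun t' => k ⟨π x, ⟨t, π y, t', mon r⟩, mon hx.2, ?_⟩,
        fun t => h.st.conv.out h1 t ⟨mon hx.2, mon r⟩⟩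
  · exact h2 this
  · have := cut_nn h t (mon hx.2) le_rfl
    have := cut_le h t (mon hx.2) le_rfl
    have : z (π a) (π x) ≠ 0 := fun e => hx.1 ((h.cov.up a hb x hx.2).2 ⟨t, e⟩)
    omega

theorem cut_hs (cp : CondP t.A z) (vm : VM t.A z) : Hs (Yo t.A) z := by
  have mon := h.cov.toLift.mon
  have g := Sup43.good_inn h.st.toGood h.st.thick
  have s := cut_s1 h
  refine ⟨⟨inn_up, g.mf, g.nice⟩, g.bnd, s, Sup43.sf_inn h.sf, max_yo h.st.mf h.sf cp h.max,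
    cut_mf h, ?_, fun x hx y hy l k => ?_⟩
  · rintro j (rfl | rfl) x ⟨hx, hy⟩
    · obtain ⟨b, hb, rfl⟩ := h.cov.toLift.exA (inn_sub hy)
      refine (WS.of_iso (f := π) (A := {q | q ∈ s'.A ∧ b ≤ q ∧ q ∉ Fr s'.A})
        (B := {y | (y ∉ HS (Yo t.A) z ∧ z (π b) y = 0) ∧ π b ≤ y}) (fun q k => ⟨⟨((cut_inn h).1 ⟨k.1, k.2.2⟩).2.2,
        h.cov.zero hb k.1 k.2.1⟩, mon k.2.1⟩) (fun y k => ?_) fun p a q c =>
          ⟨fun l => (h.cov.le_iff a.1 c.1).2 ⟨l, hs_from s ((cut_inn h).1 ⟨a.1, a.2.2⟩).2.2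
            ((cut_inn h).1 ⟨c.1, c.2.2⟩).2.1 l⟩, fun l => mon l⟩).ctr_iff.1
        (h.st'.thick.inn b (fr_of hb fun k => ((cut_inn h).1 k).2.2 hx))
      obtain ⟨q, l, rfl⟩ := cut_up h hb k.2
      have a := (h.cov.up b hb q l).2 ⟨(inn_up k.2 hy).1, k.1.2⟩
      exact ⟨q, ⟨a, l, ((cut_inn h).2 ⟨a, inn_up k.2 hy, k.1.1⟩).2⟩, rfl⟩
    · obtain ⟨y, y1, y2, y3⟩ := hx
      convert cut_lc h y1.1 y2 y3 using 1
      exact Set.ext fun a => ⟨fun k => ⟨(inn_up k.2 hy).1, k.2, k.1.2⟩, fun k =>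
        ⟨⟨fun j => by have := hs_into s j k.2.1; have := k.2.2; omega, k.2.2⟩, k.2.1⟩⟩
  by_cases j : x ∈ t.A
  · obtain ⟨b, b1, b2, b3⟩ := cut_pinch h (fr_of j hx) hy.1 l k
    rcases ((cut_lc h hy.1 l k).conn y ⟨hy.1, l, le_antisymm (cut_le h hy.1 l le_rfl) k⟩ b
      ⟨b1.1, b2, b3⟩).exit (X := (Yo t.A)ᶜ) (not_not.2 hy) with ⟨i, -⟩ | ⟨r, r1, r2, v, v1, v2, v3⟩
    · exact absurd b1 (not_not.1 i).2
    · exact ⟨r, v, v2, v1.2.1, v3.resolve_left fun i => v2 (inn_up i (not_not.1 r1.2)),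
        by rw [v1.2.2]; norm_num, r2.mono fun a i => ⟨not_not.1 i.2, i.1.2.1, by
          rw [i.1.2.2]; norm_num⟩⟩
  · obtain ⟨m, m1, m2, m3, m4⟩ := vm y hy.1 x j l
    have := (tri3 hy.1 (m4 x j l) m2).add h.sf.coc
    exact ⟨y, m, fun i => m1 i.1, m4 x j l, m2, by omega, Rch.rfl⟩

/-- **RSL** -/
theorem rsl (cp : CondP t.A z) (vm : VM t.A z) :
    MfIn (HS (Yo t.A) z) (Yo t.A) ∧ IcP (HS (Yo t.A) z) (Yo t.A) ∧
      ∀ x ∈ HS (Yo t.A) z, ∃ o, o ∉ Yo t.A ∧ Rch (HS (Yo t.A) z) x o :=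
  ⟨cut_mf h, (cut_hs h cp vm).icP, fun _ => hs_out inn_up (cut_s1 h) (Sup43.sf_inn h.sf)⟩

end

end Crest.Agent.X212.Hp13
end

-- ▼ part X212/St29/E1
section

/-!
# X212 / St29 (helper29): KH-E1, a Haken family of the cut manifold goes down
-/

set_option autoImplicit false
set_option linter.unusedSectionVars false

open Finset Classical

noncomputable section

namespace Crest.Agent.X212.St29.E1

open Hp13 hiding sub_cl cl_low om_low cl_mono exOn_pb exOn_add exOn_neg exOn_congr dp_iff coc_iff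
open Hk
open Alg36 (Om Esc mix)
open Kh11 (WS)
open Ind26 (Cov)
open Sm10.Mv (two_symm two_rg mem_cl_sub)

variable {P Q R : Type} [PartialOrder P] [Fintype P] [PartialOrder Q] [Fintype Q] [PartialOrder R]
  {π : Q → P} {W₀ X K B Y H : Set P} {W S U V G : Set Q} {b b' q : Q} {x : P} {w : P → P → ℤ}
  {t : St} {f : t.P → P} {car : P → R}

/-- `π` is an isomorphism of the upper set `W` onto `W₀` and of the stars -/
structure LI (π : Q → P) (W₀ : Set P) (W : Set Q) : Prop where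
  cov : Cov ⟨P, W₀⟩ ⟨Q, W⟩ 0 π
  up : IsUpperSet W

namespace LI

variable (h : LI π W₀ W)
include h

theorem mono : Monotone π := h.cov.toLift.mon

theorem mem (hb : b ∈ W) : π b ∈ W₀ := h.cov.toLift.mem hb

theorem le (hb : b ∈ W) (hb' : b' ∈ W) : π b ≤ π b' ↔ b ≤ b' :=
  ⟨fun l => (h.cov.le_iff hb hb').2 ⟨l, rfl⟩, fun l => h.mono l⟩

theorem dn (hb : b ∈ W) (l : q ≤ b) (k : π q ∈ W₀) : q ∈ W := (h.cov.dn b hb q l).2 ⟨k, rfl⟩

theorem lo (hb : b ∈ W) (l : x ≤ π b) : ∃ q ≤ b, π q = x :=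
  let ⟨q, k, e⟩ := h.cov.toLift.ex hb (.inr l); ⟨q, h.cov.refl b hb q b k Cm.rfl (e ▸ l), e⟩

theorem hi (hb : b ∈ W) (l : π b ≤ x) : ∃ q, b ≤ q ∧ π q = x :=
  let ⟨q, k, e⟩ := h.cov.toLift.ex hb (.inl l); ⟨q, h.cov.refl b hb b q Cm.rfl k (e ▸ l), e⟩

theorem mem_img (s : S ⊆ W) (hq : q ∈ W) : π q ∈ π '' S ↔ q ∈ S :=
  h.cov.bij.injOn.mem_image_iff s hq

theorem ws (s : S ⊆ W) : WS S (π '' S) π :=
  WS.of_iso (fun _ k => ⟨_, k, rfl⟩) (fun _ k => k) fun _ k _ k' => h.le (s k) (s k')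

theorem low (s : S ⊆ W) (k : IsLowerSet S) : IsLowerSet (π '' S) := by
  rintro _ x l ⟨b, hb, rfl⟩
  obtain ⟨q, l', e⟩ := h.lo (s hb) l
  exact ⟨q, k l' hb, e⟩

theorem upp (s : S ⊆ W) (k : IsUpperSet S) : IsUpperSet (π '' S) := by
  rintro _ x l ⟨b, hb, rfl⟩
  obtain ⟨q, l', e⟩ := h.hi (s hb) l
  exact ⟨q, k l' hb, e⟩

theorem img {p : P → Prop} (k : ∀ x, p x → x ∈ W₀) : π '' {q | q ∈ W ∧ p (π q)} = {x | p x} :=
  Set.ext fun x => ⟨fun ⟨_, a, e⟩ => e ▸ a.2, fun a =>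
    let ⟨q, hq, e⟩ := h.cov.toLift.exA (k x a); ⟨q, ⟨hq, e ▸ a⟩, e⟩⟩

theorem ws' {p : P → Prop} (k : ∀ x, p x → x ∈ W₀) : WS {q | q ∈ W ∧ p (π q)} {x | p x} π :=
  h.img k ▸ h.ws fun _ a => a.1

/-- the map of chains -/
def im : Ch Q → Ch P := h.cov.toLift.im

theorem top_im (d : Ch Q) : (h.im d).top = π d.top := h.cov.toLift.top_im d

theorem bot_im (d : Ch Q) : (h.im d).bot = π d.bot := h.cov.toLift.bot_im d

theorem sd : LI h.im (Ch.top ⁻¹' W₀) (Ch.top ⁻¹' W) := ⟨h.cov.sd, h.up.preimage Ch.top_mono⟩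

theorem lev (hf : Tw P t f) : ∃ (t' : St) (g : t'.P → Q) (π' : t'.P → t.P), Tw Q t' g ∧
    LI π' (f ⁻¹' W₀) (g ⁻¹' W) ∧ (∀ y, f (π' y) = π (g y)) ∧
    ∀ S ⊆ W, π' '' (g ⁻¹' S) = f ⁻¹' (π '' S) := by
  obtain ⟨u, g, π', h1, h2, h3⟩ := h.cov.desc (hf.desc W₀)
  replace h2 : Cov ⟨t.P, f ⁻¹' W₀⟩ ⟨u.P, g ⁻¹' W⟩ 0 π' := by
    rw [← show u.A = g ⁻¹' W from h1.A_eq]
    exact h2
  have e := congrFun h3
  refine ⟨lv0 u.P, g, π', Tw.of_desc h1, ⟨h2, h.up.preimage h1.mono⟩, e, fun S s => Set.ext fun y =>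
    ⟨fun ⟨q, a, k⟩ => ⟨_, a, k ▸ (e q).symm⟩, fun ⟨q, a, k⟩ => ?_⟩⟩
  obtain ⟨p, hp, rfl⟩ := h2.toLift.exA (a := y) (show f y ∈ W₀ from k ▸ h.mem (s a))
  exact ⟨p, (h.mem_img s hp).1 ⟨q, a, k.trans (e p)⟩, rfl⟩

theorem ines (s : G ⊆ W) (k : Ines G (pb π w)) : Ines (π '' G) w := by
  obtain ⟨Z, z1, z2, z3⟩ := k
  have e : ∀ q ∈ G, ind (π '' Z) (π q) = ind Z q := fun q hq => by
    simp only [ind, h.mem_img (z1.trans s) (s hq)]
  refine ⟨π '' Z, Set.image_mono z1, (h.ws (z1.trans s)).ctr_iff.1 z2, z3.imp ?_ ?_⟩ <;>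
  · rintro k _ ⟨p, hp, rfl⟩ _ ⟨q, hq, rfl⟩ l
    refine (k p hp q hq ((h.le (s hp) (s hq)).1 l)).trans ?_
    simp only [Pi.neg_apply, cb, e p hp, e q hq]

/-- a ball off the cut lifts -/
theorem bal (k : Bal Y B) (s : B ⊆ W₀) : Bal W {q | q ∈ W ∧ π q ∈ B} := by
  have u : IsUpperSet {q | q ∈ W ∧ π q ∈ B} := h.up.inter (k.up.preimage h.mono)
  have m : ∀ {T : Type} [PartialOrder T] {E : Set T} (_ : IsUpperSet E) (c : Ch T),
      c ∈ mix E ↔ c.top ∈ E ∧ c.bot ∉ E := fun hE _ => and_congr (mt_iff hE) (mt_low hE.compl)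
  refine ⟨u, fun _ a => a.1, ?_, (h.ws' s).eu_eq.trans k.eu⟩
  convert (h.sd.ws' (p := (· ∈ mix B)) fun c a => s ((m k.up c).1 a).1).conn_iff.2 k.conn using 1
  refine Set.ext fun d => ?_
  simp only [m u, m k.up, Set.mem_ofPred_eq, h.top_im, h.bot_im, Set.mem_preimage]
  exact ⟨fun a => ⟨a.1.1, a.1.2, fun j => a.2 ⟨h.dn a.1.1 d.bot_le_top (s j), j⟩⟩,
    fun a => ⟨⟨a.1, a.2.1⟩, fun j => a.2.2 j.2⟩⟩

end LI

/-- `X` is the image of `V` up to the lower set `K` -/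
structure Ps (π : Q → P) (W V G : Set Q) (X K : Set P) : Prop where
  up : IsUpperSet V
  sV : V ⊆ W
  sG : G ⊆ W
  low : IsLowerSet G
  sub : G ⊆ Om V
  upX : IsUpperSet X
  im : ∀ q ∈ V, π q ∈ X
  dj : ∀ q ∈ G, π q ∉ X
  lowK : IsLowerSet K
  cov : cl X ⊆ π '' (V ∪ G) ∪ K
  om : ∀ y ∈ Om V, y ∉ G → π y ∈ K

theorem Ps.zero (k : Ps π W V G X K) (h : LI π W₀ W) (i : INC V G) (td : TD X w)
    (fl : Flat (K ∩ cl X) w) : Ines (π '' G) w := by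
  have c : ∀ {y}, y ∈ cl V → π y ∈ cl X := fun ⟨v, a, l⟩ => ⟨_, k.im v a, h.mono l⟩
  have z : ∀ {x y}, x ≤ y → y ∈ cl X → y ∈ K → w x y = 0 := fun l a j =>
    fl _ ⟨k.lowK l j, cl_low l a⟩ _ ⟨j, a⟩ l
  have n : ∀ e : Ch P, e.top ∈ cl X → w e.bot e.top ≠ 0 → e.top ∈ π '' (V ∪ G) := fun e a j =>
    (k.cov a).resolve_right fun m => j (z e.bot_le_top a m)
  have n' : ∀ e : Ch P, e.top ∈ X → w e.bot e.top ≠ 0 → e.top ∈ π '' V := fun e a j =>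
    let ⟨q, m, l⟩ := n e (sub_cl a) j; ⟨q, m.resolve_right fun g => k.dj q g (l ▸ a), l⟩
  have s0 : ∀ {x}, x ∈ π '' V → x ∈ W₀ := fun ⟨_, a, e⟩ => e ▸ h.mem (k.sV a)
  refine h.ines k.sG (i.zero ⟨⟨cocOn_mono (cocOn_pb td.coc h.mono) fun _ => c,
    fun x y a l => td.nn _ _ (c a) (h.mono l), fun x y a l => td.le1 _ _ (c a) (h.mono l)⟩,
    ?_, ?_, ?_⟩ fun x _ y a l => z (h.mono l) (c (om_sub_cl a.1)) (k.om y a.1 a.2))
  · convert (h.sd.ws' (p := (· ∈ CA X w)) fun e a => s0 (n' e a.1 a.2.ne')).conn_iff.2 td.conn using 1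
    refine Set.ext fun d => ?_
    simp only [CA, Set.mem_ofPred_eq, h.top_im, h.bot_im, Set.mem_preimage, pb]
    exact ⟨fun a => ⟨k.sV a.1, k.im _ a.1, a.2⟩, fun a => ⟨(h.mem_img k.sV a.1).1 (by
      simpa only [h.top_im] using n' (h.im d) (h.top_im d ▸ a.2.1)
        (by rw [h.top_im, h.bot_im]; exact a.2.2.ne')), a.2.2⟩⟩
  · rw [← td.chi, chi, chi]
    refine (sum_nbij (t := univ.filter fun e : Ch P => e.top ∈ π '' V) h.im (fun d a => ?_)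
      (fun d a d' a' => h.sd.cov.bij.injOn ?_ ?_) (fun e a => ?_) fun d _ => ?_).trans
      (sum_subset (fun e a => ?_) fun e a j => ?_)
    · exact mem_filter.2 ⟨mem_univ _, _, (mt_iff k.up).1 (mem_filter.1 a).2, (h.top_im d).symm⟩
    · exact k.sV ((mt_iff k.up).1 (mem_filter.1 a).2)
    · exact k.sV ((mt_iff k.up).1 (mem_filter.1 a').2)
    · obtain ⟨d, m, rfl⟩ := h.sd.cov.toLift.exA (a := e) (s0 (mem_filter.1 a).2)
      exact ⟨d, mem_filter.2 ⟨mem_univ _, (mt_iff k.up).2 ((h.mem_img k.sV m).1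
        (h.top_im d ▸ (mem_filter.1 a).2))⟩, rfl⟩
    · rw [h.top_im, h.bot_im, LI.im, Ind26.Lift.sg_im]; rfl
    · obtain ⟨q, m, l⟩ := (mem_filter.1 a).2
      exact mem_filter.2 ⟨mem_univ _, (mt_iff k.upX).2 (l ▸ k.im q m)⟩
    · rw [by_contra fun m => j (mem_filter.2 ⟨mem_univ _,
        n' e ((mt_iff k.upX).1 (mem_filter.1 a).2) m⟩), mul_zero]
  · obtain ⟨e, a⟩ := td.ne
    rw [mem_cv (om_low k.upX)] at a
    obtain ⟨q, m, l⟩ := n e a.1.2 a.2.ne'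
    have g : q ∈ G := m.resolve_left fun v => a.1.1 (l ▸ k.im q v)
    obtain ⟨d, m', rfl⟩ := h.sd.cov.toLift.exA (a := e) (show e.top ∈ W₀ from l ▸ h.mem (k.sG g))
    have l' : π q = π d.top := l.trans (h.top_im d)
    refine ⟨d, (mem_cv (om_low k.up)).2 ⟨k.sub (h.cov.bij.injOn (k.sG g) m' l' ▸ g), ?_⟩⟩
    simpa only [← h.top_im, ← h.bot_im, pb] using a.2

theorem Ps.lev (k : Ps π W V G X K) (h : LI π W₀ W) (i : INC V G) (hf : Tw P t f)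
    {w : t.P → t.P → ℤ} (td : TD (f ⁻¹' X) w) (fl : Flat (f ⁻¹' (K ∩ cl X)) w) :
    Ines (f ⁻¹' (π '' G)) w := by
  obtain ⟨t', g, π', hg, h', e, e'⟩ := h.lev hf
  rw [← e' G k.sG]
  refine Ps.zero (K := f ⁻¹' K) ⟨hg.upper k.up, fun _ a => k.sV a, fun _ a => k.sG a, hg.lower k.low,
    hg.om V ▸ fun _ a => k.sub a, hf.upper k.upX, fun q a => ?_, fun q a => ?_, hf.lower k.lowK, ?_,
    fun y a j => ?_⟩ h' (i.pre hg) td (by rwa [hf.cl])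
  · exact Set.mem_preimage.2 (e q ▸ k.im _ a)
  · exact fun m => k.dj _ a (e q ▸ Set.mem_preimage.1 m)
  · rw [hf.cl, ← Set.preimage_union, e' _ (Set.union_subset k.sV k.sG)]
    exact fun _ a => k.cov a
  · rw [hg.om] at a
    exact Set.mem_preimage.2 (e y ▸ k.om _ a j)

/-- the cut surface `H` of `Y` -/
structure Sit (π : Q → P) (Y H : Set P) (W : Set Q) : Prop where
  li : LI π (Y \ H) W
  amb : Amb Y
  low : IsLowerSet H
  mf : MfIn H Y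
  ic : IcP H Y
  esc : ∀ x ∈ H, ∃ o, o ∉ Y ∧ Rch H x o

theorem Sit.nb (h : Sit π Y H W) (hS : TraSStmt) (hI : IcStmt) (s : G ⊆ W) (l : IsLowerSet G)
    (c : Conn G) (k : NB W G) : NB Y (π '' G) := fun t f hf B hB j => by
  obtain ⟨u, f', B', h1, h2, h3, h4⟩ := hS t.P _ _ _ B _ (h.amb.pre hf) (hf.upper h.amb.up) subset_rfl
    (hf.lower h.low) (h.mf.pre h.low hf) hB (hf.lower (h.li.low s l))
    (hf.conn.2 ((h.li.ws s).conn_iff.1 c))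
    (Set.disjoint_left.2 fun x ⟨q, a, e⟩ m => (h.li.mem (s a)).2 (e ▸ m.1)) j
  have hF := hf.trans h1
  have fl := (hI P).2.2 Y Y H h.amb.sub h.low h.mf (Set.disjoint_left.2 fun _ a m => m.1 a.2) h.ic _ _
    hF _ (.inr (h2.sp (h.amb.toRg.pre hF)))
    (flat_of_disj (Set.disjoint_left.2 fun _ a m => a.2.1 (h2.sub m))) h4
  obtain ⟨t', g, π', hg, h', e, -⟩ := h.li.lev hF
  refine k t' g hg _ (h'.bal h2 fun x a => ⟨h2.sub a, fun m => ?_⟩) fun q a =>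
    ⟨s a, h3 ⟨_, a, (e q).symm⟩⟩
  obtain ⟨o, o1, o2⟩ := h.esc _ m
  obtain ⟨o, rfl⟩ := hF.surj o
  refine o1 (h2.sub ((((hF.ws H).rch_iff m (o2.mem m)).2 o2).ind a fun p hp q hq l =>
    ⟨h2.up l, fun j => ?_⟩))
  have := sub_cl (X := Y) (h2.sub j)
  exact (cb_ind_eq_zero.1 (fl p ⟨hp, cl_low (hF.mono l) this⟩ q ⟨hq, this⟩ l)).2 j

theorem Sit.two (h : Sit π Y H W) (k : Mem (car ∘ π) W U G V) (hc : Monotone car) :
    Two car Y (π '' U) (π '' G) (Y \ π '' (U ∪ G)) := by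
  have l := h.li
  have sU := k.two.sub
  have s := Set.union_subset sU k.sub
  have lw : IsLowerSet (U ∪ G) := fun _ _ a m =>
    m.elim (fun m => mem_cl_sub k ⟨_, m, a⟩) fun m => .inr (k.two.bd.low a m)
  have tv : ∀ {S : Set Q} {X : Set P}, (∀ q ∈ W, π q ∈ X ↔ q ∈ S) → S ⊆ W →
      TV (car ∘ π) S (G ∩ W) → TV car X (π '' G ∩ Y) := by
    rintro S X e sS j T hT _ ⟨⟨g, a, rfl⟩, -⟩ m
    convert (l.ws fun _ a => sS a.1).ctr_iff.1 (j T hT g ⟨a, k.sub a⟩ m) using 1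
    refine Set.ext fun y => ⟨fun ⟨y1, y2, y3⟩ => ?_, ?_⟩
    · obtain ⟨q, q1, rfl⟩ := l.hi (k.sub a) y2
      exact ⟨q, ⟨(e q (l.up q1 (k.sub a))).1 y1, q1, y3⟩, rfl⟩
    · rintro ⟨q, ⟨q1, q2, q3⟩, rfl⟩
      exact ⟨(e q (sS q1)).2 q1, l.mono q2, q3⟩
  refine ⟨hc, l.upp sU k.two.up, h.amb.up.sdiff_of_isLowerSet (l.low s lw),
    fun _ ⟨_, a, e⟩ => e ▸ (l.mem (sU a)).1, Set.sdiff_subset, fun y a => ?_,
    Set.disjoint_left.2 fun _ a m => m.2 (Set.image_mono Set.subset_union_left a),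
    Set.disjoint_left.2 fun _ m a => m.2 (Set.image_mono Set.subset_union_right a),
    ⟨l.low k.sub k.two.bd.low, ?_, ?_⟩, tv (fun q => l.mem_img sU) sU k.two.tv,
    tv (fun q a => ?_) k.two.sub' k.two.tv'⟩
  · by_cases m : y ∈ π '' (U ∪ G)
    · rw [Set.image_union] at m
      exact m.imp_right .inl
    · exact .inr (.inr ⟨a, m⟩)
  · rintro _ ⟨g, a, rfl⟩
    obtain ⟨n, u, m, j⟩ := k.two.bd.sub a
    exact ⟨fun i => n ((l.mem_img sU (k.sub a)).1 i), _, ⟨u, m, rfl⟩, l.mono j⟩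
  · rintro - - y ⟨n, _, ⟨u, m, rfl⟩, j⟩ -
    obtain ⟨q, q1, rfl⟩ := l.lo (sU m) j
    exact ⟨q, k.om ⟨fun i => n ⟨q, i, rfl⟩, u, m, q1⟩, rfl⟩
  · rw [Set.mem_sdiff, l.mem_img s a]
    exact ⟨fun m => ((k.two.cov q a).resolve_left fun i => m.2 (.inl i)).resolve_left
      fun i => m.2 (.inr i), fun m => ⟨(l.mem a).1, fun i => i.elim
        (Set.disjoint_right.1 k.two.dj m) (Set.disjoint_left.1 k.two.dg m)⟩⟩

theorem Sit.mem (h : Sit π Y H W) (hD : TraDStmt) (hS : TraSStmt) (hI : IcStmt)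
    (k : Mem (car ∘ π) W U G V) (hc : Monotone car) :
    Mem car Y (π '' U) (π '' G) (Y \ π '' (U ∪ G)) := by
  have l := h.li
  have T := h.two k hc
  have s : π '' G ⊆ Y := fun _ ⟨_, a, e⟩ => e ▸ (l.mem (k.sub a)).1
  have om : Om (π '' U) ⊆ π '' G := by
    rintro y ⟨n, _, ⟨u, m, rfl⟩, j⟩
    obtain ⟨q, q1, rfl⟩ := l.lo (k.two.sub m) j
    exact ⟨q, k.om ⟨fun i => n ⟨q, i, rfl⟩, u, m, q1⟩, rfl⟩
  refine ⟨T, s, (l.ws k.sub).conn_iff.1 k.conn, k.ne.image π, om, fun t f hf w td _ => ?_,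
    fun t f hf w td on => ?_, h.nb hS hI k.sub k.two.bd.low k.conn k.nb⟩
  · refine Ps.lev (K := ∅) ⟨k.two.up, k.two.sub, k.sub, k.two.bd.low, k.two.bd.sub, T.up,
      fun q a => ⟨q, a, rfl⟩, fun q a => T.bd.not ⟨q, a, rfl⟩, isLowerSet_empty, fun y a => .inl ?_,
      fun y a j => j (k.om a)⟩ l k.inc hf td fun _ a => a.1.elim
    rw [Set.image_union]
    exact (mem_cl.1 a).imp_right fun m => om m
  set X := Y \ π '' (U ∪ G)
  have T' := two_symm T h.amb.up s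
  have k' := two_symm k.two l.up k.sub
  have sb : Sub Y X := .of h.amb (two_rg T' h.amb.toRg s) T'.sub
  have oX : ∀ y ∈ Om X, y ∈ Y → y ∈ π '' G := fun y ⟨n, v, a, j⟩ m =>
    ((T.cov y m).resolve_left fun i => Set.disjoint_left.1 T.dj (T.up j i) a).resolve_right n
  have nH : ∀ y ∈ π '' G, y ∉ H := fun _ ⟨_, a, e⟩ => e ▸ (l.mem (k.sub a)).2
  obtain ⟨u, f', w', h1, h2⟩ := hD t.P _ _ _ _ w (sb.pre hf) (hf.upper sb.up) subset_rfl
    (hf.lower h.low) ((h.mf.mono fun _ a => a.2.1).pre h.low hf) td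
  have hF := hf.trans h1.tw
  have on' : Flat ((f ∘ f') ⁻¹' (Om X \ π '' G)) w' := by
    have := h1.on (hf.upper sb.up) (T'.bd.pre hf) (Set.disjoint_left.2 fun _ a m => a.1.1 m.2) on
    rwa [On, h1.tw.om, hf.om] at this
  have fl := (hI P).2.2 Y X H sb h.low h.mf
    (Set.disjoint_left.2 fun y a m => nH y (oX y m a.2) a.1) h.ic _ _ hF w' (.inl h1.td)
    (on'.mono fun y a => ⟨a.2, fun m => nH _ m a.1⟩) h2
  have lw := T'.bd.low_diff sb.up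
  refine h1.ines _ (T'.bd.pre hf) on (Ps.lev (K := H ∪ Om X \ π '' G) ⟨k'.up, k'.sub, k.sub,
    k'.bd.low, k'.bd.sub, sb.up, fun q a => ⟨(l.mem (k'.sub a)).1, fun i => ?_⟩,
    fun q a => T'.bd.not ⟨q, a, rfl⟩, h.low.union lw, fun y a => ?_, fun y a j => ?_⟩ l k.inc' hF h1.td
    fun x a y c j => c.1.elim (fun m => fl x ⟨h.low (hF.mono j) m, a.2⟩ y ⟨m, c.2⟩ j)
      fun m => on' x (lw (hF.mono j) m) y m j)
  · exact ((l.mem_img (Set.union_subset k.two.sub k.sub) (k'.sub a)).1 i).elim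
      (Set.disjoint_left.1 k'.dj a) (Set.disjoint_left.1 k.two.dg a)
  · by_cases m : y ∈ H ∪ Om X \ π '' G
    · exact .inr m
    rcases mem_cl.1 a with a | a
    · obtain ⟨q, q1, rfl⟩ := l.cov.toLift.exA (a := y) ⟨a.1, fun i => m (.inl i)⟩
      exact .inl ⟨q, ((k.two.cov q q1).resolve_left fun i => a.2 ⟨q, .inl i, rfl⟩).symm, rfl⟩
    · exact .inl (Set.image_mono Set.subset_union_right (by_contra fun i => m (.inr ⟨a, i⟩)))
  · obtain ⟨n, v, a, i⟩ := a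
    have nW : y ∉ W := fun m => (k.two.cov y m).elim
      (fun c => Set.disjoint_left.1 k.two.dj (k.two.up i c) a) (·.elim j n)
    have nY : π y ∈ Y → π y ∈ H := fun m => by_contra fun c => nW (l.dn (k'.sub a) i ⟨m, c⟩)
    by_cases m : π y ∈ Y
    · exact .inl (nY m)
    · refine .inr ⟨⟨fun c => m c.1, π v, ⟨(l.mem (k'.sub a)).1, fun c => ?_⟩, l.mono i⟩,
        fun c => m (s c)⟩
      exact ((l.mem_img (Set.union_subset k.two.sub k.sub) (k'.sub a)).1 c).elim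
        (Set.disjoint_left.1 k'.dj a) (Set.disjoint_left.1 k.two.dg a)

theorem Sit.np (h : Sit π Y H W) {U' G' V' : Set Q} (k : Mem (car ∘ π) W U G V)
    (k' : Mem (car ∘ π) W U' G' V') (n : NP U G G' V') :
    NP (π '' U) (π '' G) (π '' G') (Y \ π '' (U' ∪ G')) := fun j => by
  have l := h.li
  obtain ⟨ζ, z1, z2⟩ := n fun q a => (l.mem_img k.two.sub (k'.sub a)).1 (j ⟨q, a, rfl⟩)
  have : Nonempty Q := k.ne.nonempty
  let σ := Function.invFunOn π W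
  have e : ∀ q ∈ W, σ (π q) = q := fun q a => l.cov.bij.injOn.leftInvOn_invFunOn a
  have ex : ∀ {S}, S ⊆ W → (ExOn (π '' S) (pb σ ζ) ↔ ExOn S ζ) := fun s =>
    ⟨fun ⟨g, c⟩ => ⟨g ∘ π, fun x a y a' i => by
      simpa only [pb, Function.comp, e x (s a), e y (s a')] using
        c _ ⟨x, a, rfl⟩ _ ⟨y, a', rfl⟩ (l.mono i)⟩,
    fun ⟨g, c⟩ => ⟨g ∘ σ, by
      rintro _ ⟨x, a, rfl⟩ _ ⟨y, a', rfl⟩ i
      simpa only [pb, Function.comp, e x (s a), e y (s a')] using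
        c x a y a' ((l.le (s a) (s a')).1 i)⟩⟩
  have s := Set.union_subset k.two.sub k.sub
  have m : ∀ x ∈ (π '' U ∪ π '' G) ∩ (Y \ π '' (U' ∪ G') ∪ π '' G'),
      ∃ q ∈ (U ∪ G) ∩ (V' ∪ G'), π q = x := fun x a => by
    rw [← Set.image_union] at a
    obtain ⟨⟨q, q1, rfl⟩, a⟩ := a
    refine ⟨q, ⟨q1, a.elim (fun a => ?_) fun a => .inr ((l.mem_img k'.sub (s q1)).1 a)⟩, rfl⟩
    exact ((k'.two.cov q (s q1)).resolve_left fun i => a.2 ⟨q, .inl i, rfl⟩).symm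
  refine ⟨pb σ ζ, fun x a y a' v a'' i i' => ?_, by rwa [ex k.sub, ex k'.sub]⟩
  obtain ⟨x, x1, rfl⟩ := m x a
  obtain ⟨y, y1, rfl⟩ := m y a'
  obtain ⟨v, v1, rfl⟩ := m v a''
  simp only [pb, e _ (s x1.1), e _ (s y1.1), e _ (s v1.1)]
  exact z1 x x1 y y1 v v1 ((l.le (s x1.1) (s y1.1)).1 i) ((l.le (s y1.1) (s v1.1)).1 i')

/-! ### the cut -/

theorem amb_yo {s : St} (h : Cut21.Stt s) : Amb (Yo s.A) := by
  have g := Sup43.good_inn h.toGood h.thick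
  refine ⟨⟨Sup43.inn_up, g.mf, g.nice⟩, g.bnd, g.bnd2, fun a ha => by_contra fun n => ?_⟩
  obtain ⟨b, -, r, x, x1, x2⟩ := h.esc a ha.1
  have : b ∈ Yo s.A ∧ Rch (Yo s.A) a b := Ind26.rch_ind r
      (p := fun b => b ∈ Yo s.A ∧ Rch (Yo s.A) a b) ⟨ha, Rch.rfl⟩ fun p _ q _ c k =>
    have m : q ∈ Yo s.A := by_contra fun m => n ⟨p, k.1, k.2, q, m, c⟩
    ⟨m, k.2.trans (Rch.of_cm k.1 m c)⟩
  exact n ⟨b, this.1, this.2, x, fun m => x1 m.1, x2⟩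

variable {s' : St} {z : t.P → t.P → ℤ} {ρ : s'.P → t.P}

theorem s1_yo (h : CutH t s' z ρ) : S1 (Yo t.A) z :=
  have := Sup43.sf_inn h.sf
  ⟨(coc_iff Sup43.inn_up).1 this.coc, fun _ _ a l => this.mono _ _ ((dp_iff Sup43.inn_up).2 ⟨l, a⟩),
    fun x y ⟨v, a, j⟩ l => h.jk x y ((Classical.em (y ∈ t.A)).imp_right fun n => ⟨n, v, a.1, j⟩) l⟩

theorem zero_yo (h : CutH t s' z ρ) {x y : t.P} (a : x ∉ HS (Yo t.A) z) (c : y ∈ Yo t.A) (l : x ≤ y) :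
    z x y = 0 := le_antisymm (not_lt.1 fun k => a ⟨y, c, l, k⟩) ((s1_yo h).nn x y (sub_cl c) l)

theorem li_yo (h : CutH t s' z ρ) : LI ρ (Yo t.A \ HS (Yo t.A) z) (Yo s'.A) := by
  have c := h.cov
  have m1 : ∀ b ∈ Yo s'.A, ρ b ∈ Yo t.A \ HS (Yo t.A) z := fun b hb => by
    have : ∀ x, ρ b ≤ x → x ∈ t.A ∧ z (ρ b) x = 0 := fun x l => by
      obtain ⟨q, k, rfl⟩ := c.toLift.ex hb.1 (.inl l)
      have := c.refl b hb.1 b q Cm.rfl k l
      exact (c.up b hb.1 q this).1 (Sup43.inn_up this hb).1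
    exact ⟨⟨c.toLift.mem hb.1, fun ⟨_, o, n, l⟩ => n (this o l).1⟩,
      fun ⟨y, _, l, k⟩ => k.ne' (this y l).2⟩
  have m2 : ∀ b ∈ s'.A, ρ b ∈ Yo t.A \ HS (Yo t.A) z → b ∈ Yo s'.A := fun b hb a =>
    ⟨hb, fun ⟨_, q, n, l⟩ =>
      have k := Sup43.inn_up (c.toLift.mon l) a.1
      n ((c.up b hb q l).2 ⟨k.1, zero_yo h a.2 k (c.toLift.mon l)⟩)⟩
  exact ⟨⟨⟨c.mono, ⟨m1, c.bij.injOn.mono fun _ a => a.1, fun x a =>
      let ⟨b, hb, e⟩ := c.toLift.exA a.1.1; ⟨b, m2 b hb (e ▸ a), e⟩⟩,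
    fun b hb => c.star b hb.1, fun b hb => c.refl b hb.1⟩,
    fun b hb q l => iff_of_true (Sup43.inn_up l hb) ⟨m1 q (Sup43.inn_up l hb), rfl⟩,
    fun b hb q l => ⟨fun a => ⟨m1 q a, rfl⟩, fun a => m2 q ((c.dn b hb.1 q l).2
      ⟨a.1.1.1, zero_yo h a.1.2 (m1 b hb).1 (c.toLift.mon l)⟩) a.1⟩⟩, Sup43.inn_up⟩

/-- **E1** -/
theorem e1Stmt (hD : TraDStmt) (hS : TraSStmt) (hI : IcStmt) (hR : RslStmt) : E1Stmt := by
  intro t s' z ρ h R _ car k U G V hc F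
  obtain ⟨r1, r2, r3⟩ := hR t s' z ρ h
  have S : Sit ρ _ _ _ := ⟨li_yo h, amb_yo h.st, hs_low (s1_yo h), r1, r2, r3⟩
  refine ⟨fun i => ρ '' U i, fun i => ρ '' G i, fun i => Yo t.A \ ρ '' (U i ∪ G i),
    ⟨fun i => S.mem hD hS hI (F.mem i) hc, fun i j n => Set.disjoint_left.2 ?_,
      fun i j n => S.np (F.mem i) (F.mem j) (F.np i j n)⟩, fun j => ?_⟩
  · rintro _ ⟨q, a, rfl⟩ c
    exact Set.disjoint_left.1 (F.dj i j n) a ((S.li.mem_img (F.mem j).sub ((F.mem i).sub a)).1 c)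
  · rintro _ ⟨p, a, rfl⟩ _ ⟨q, c, rfl⟩ l
    exact zero_yo h (S.li.mem ((F.mem j).sub a)).2 (S.li.mem ((F.mem j).sub c)).1 l

end Crest.Agent.X212.St29.E1
end
end

-- ▼ part X212/Hd34/Pc

/-!
# X212 / Hd34 (helper34): the leaves PC and IC of P1
-/

set_option autoImplicit false
set_option linter.unusedSectionVars false

open Finset Classical

noncomputable section

namespace Crest.Agent.X212.Hd34.Pc

open Hp13 hiding sub_cl cl_low cl_mono dp_iff om_low coc_iff exOn_pb exOn_add exOn_neg exOn_congr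
open Hk
open Alg36 (Om)
open Cut21 (tp top_tp le_tp mem_tp)

variable {P : Type} [PartialOrder P] [Fintype P] {X U Y H G V : Set P} {w : P → P → ℤ}
  {D : Set (Ch P)} {x y : P} {c d e : Ch P}

theorem pr_le (l : x ≤ y) (hx : x ∈ c.1) (hy : y ∈ c.1) : Ch.pr x y l ≤ c :=
  insert_subset hx (singleton_subset_iff.2 hy)

theorem pc_cases (w : P → P → ℤ) (D : Set (Ch P)) (x y : P) :
    pc w D x y = 0 ∨ (pc w D x y = 1 ∧ 0 < w x y ∧ ∃ c ∈ D, x ∈ c.1 ∧ y ∈ c.1) := by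
  unfold pc
  split_ifs with h
  exacts [.inr ⟨rfl, h⟩, .inl rfl]

theorem pc_one (h : 0 < w x y) (hc : c ∈ D) (hx : x ∈ c.1) (hy : y ∈ c.1) : pc w D x y = 1 :=
  if_pos ⟨h, c, hc, hx, hy⟩

theorem pc_eq (hw : S1 X w) (hc : c ∈ D) (ht : c.top ∈ X) (hx : x ∈ c.1) (hy : y ∈ c.1)
    (l : x ≤ y) : pc w D x y = w x y := by
  rcases hw.cases ⟨_, ht, Ch.le_top hy⟩ l with k | k
  · rw [k]; exact if_neg fun n => n.1.ne' k
  · rw [k]; exact pc_one (by omega) hc hx hy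

section pc

variable (hU : Rg U) (hw : S1 X w) (hD : IsCmp (CA (X ∩ U) w) D)
  (h : ∀ c ∈ D, ∀ e, e ≤ c → 0 < w e.bot e.top → ∀ u ∈ U, e.top ≤ u → u ∈ X)
include hU hw hD h

/-- all cells over a face of `D` that sees the jump are in `D` -/
theorem ovr (hc : c ∈ D) (l : e ≤ c) (k : 0 < w e.bot e.top) (l' : e ≤ d) (hd : d.top ∈ U) :
    d ∈ D := by
  have s : {d | e ≤ d ∧ d.top ∈ U ∧ True} ⊆ CA (X ∩ U) w := fun d j =>
    have := h c hc e l k _ j.2.1 (Ch.top_mono j.1)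
    ⟨⟨this, j.2.1⟩, hw.up (sub_cl this) j.1 k⟩
  have := (Pt30.ctr_over (fun _ => True) trivial
    (hU.ctr ⟨_, (hD.sub hc).1.2, Ch.top_mono l⟩)).conn c ⟨l, (hD.sub hc).1.2, trivial⟩ d
      ⟨l', hd, trivial⟩
  rw [hD.eq hc]
  exact ⟨s ⟨l', hd, trivial⟩, this.mono s⟩

theorem ovr' (l : x ≤ y) (k : pc w D x y ≠ 0) (hx : x ∈ d.1) (hy : y ∈ d.1) (hd : d.top ∈ U) :
    d ∈ D :=
  let ⟨_, k, _, hc, a, b⟩ := (pc_cases w D x y).resolve_left k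
  ovr hU hw hD h hc (pr_le l a b) (by simpa using k) (pr_le l hx hy) hd

theorem s1_pc : S1 U (pc w D) := by
  refine ⟨fun x _ y _ v ⟨u, hu, l⟩ l1 l2 => ?_, fun x y _ _ => ?_, fun x y _ _ => ?_⟩
  · let d := tp (tp (Ch.pr x y l1) v (by simpa using l2)) u (by simpa using l)
    have mx : x ∈ d.1 := by simp [d]
    have my : y ∈ d.1 := by simp [d]
    have mv : v ∈ d.1 := by simp [d]
    have mu : d.top ∈ U := by simpa [d] using hu
    by_cases k : d ∈ D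
    · have t := (hD.sub k).1.1
      rw [pc_eq hw k t mx mv (l1.trans l2), pc_eq hw k t mx my l1, pc_eq hw k t my mv l2]
      exact hw.add ⟨_, t, Ch.le_top mv⟩ l1 l2
    · rw [by_contra fun n => k (ovr' hU hw hD h (l1.trans l2) n mx mv mu),
        by_contra fun n => k (ovr' hU hw hD h l1 n mx my mu),
        by_contra fun n => k (ovr' hU hw hD h l2 n my mv mu), add_zero]
  · rcases pc_cases w D x y with k | k
    exacts [k.ge, by omega]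
  · rcases pc_cases w D x y with k | k
    exacts [by omega, k.1.le]

theorem ca_pc : CA U (pc w D) = D := Set.ext fun c =>
  ⟨fun k => ovr' hU hw hD h c.bot_le_top k.2.ne' c.bot_mem c.top_mem k.1, fun k =>
    ⟨(hD.sub k).1.2, by rw [pc_one (hD.sub k).2 k c.bot_mem c.top_mem]; exact one_pos⟩⟩

theorem td_pc (he : eu D = 1) (hn : ∃ c ∈ D, ∃ e, e ≤ c ∧ 0 < w e.bot e.top ∧ e.top ∉ U) :
    TD U (pc w D) := by
  obtain ⟨c, hc, e, l, k, n⟩ := hn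
  refine ⟨s1_pc hU hw hD h, (ca_pc hU hw hD h).symm ▸ hD.conn,
    by rw [Cut21.chi_ca hU (s1_pc hU hw hD h), ca_pc hU hw hD h, he], e,
    (all_low (om_low hU.up)).2 ⟨n, _, (hD.sub hc).1.2, Ch.top_mono l⟩, ?_⟩
  rw [pc_one k hc (l e.bot_mem) (l e.top_mem)]
  exact one_pos

end pc

/-- **PC** -/
theorem pcStmt : PcStmt := fun _ _ _ _ _ _ _ hU _ hw hD h =>
  ⟨s1_pc hU hw hD h, ca_pc hU hw hD h, td_pc hU hw hD h⟩

/-! ### levels -/

section lev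

variable {t : St} {f : t.P → P}

theorem tw_ind (h : Tw P t f) {J : ∀ t : St, (t.P → P) → Prop} (h0 : J (lv0 P) id)
    (h1 : ∀ t f, Tw P t f → J t f → J t.sd (f ∘ Ch.top)) : J t f :=
  Desc.rec (s := lv0 P) (motive := fun t f _ => J t f) h0 (fun d ih => h1 _ _ d ih) h

theorem tw_rg (h : Tw P t f) (hX : Rg X) : Rg (f ⁻¹' X) :=
  tw_ind h (J := fun _ f => Rg (f ⁻¹' X)) hX fun _ _ _ ih => rg_sd ih

theorem tw_cl (h : Tw P t f) (X : Set P) : cl (f ⁻¹' X) = f ⁻¹' cl X :=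
  tw_ind h (J := fun _ f => cl (f ⁻¹' X) = f ⁻¹' cl X) rfl fun _ _ _ ih =>
    cl_sd.trans (congrArg (Ch.top ⁻¹' ·) ih)

theorem tw_om (h : Tw P t f) (X : Set P) : Om (f ⁻¹' X) = f ⁻¹' Om X :=
  Set.ext fun x => and_congr_right fun _ => Set.ext_iff.1 (tw_cl h X) x

theorem tw_mono (h : Tw P t f) : Monotone f := (Desc.ce h).mono

theorem tw_mfIn (h : Tw P t f) (hH : IsLowerSet H) (k : MfIn H X) : MfIn (f ⁻¹' H) (f ⁻¹' X) :=
  tw_ind h (J := fun _ f => MfIn (f ⁻¹' H) (f ⁻¹' X)) k fun _ _ d ih =>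
    mfIn_sd (hH.preimage (tw_mono d)) ih

theorem tw_ctr (h : Tw P t f) (k : Ctr X) : Ctr (f ⁻¹' X) := ((Desc.ce h).ws_pre X).ctr_iff.2 k

end lev

/-! ### the two sides of a member -/

/-- `W` and `W'` are the sides of `G` in `Y` -/
structure Sd (Y W G W' : Set P) : Prop where
  up : IsUpperSet W
  up' : IsUpperSet W'
  cov : ∀ y ∈ Y, y ∈ W ∨ y ∈ G ∨ y ∈ W'
  dj : Disjoint W W'
  dg : Disjoint W G
  dg' : Disjoint W' G

theorem Sd.symm (h : Sd Y U G V) : Sd Y V G U :=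
  ⟨h.up', h.up, fun y hy => by have := h.cov y hy; tauto, h.dj.symm, h.dg', h.dg⟩

theorem Sd.pre {Q : Type} [PartialOrder Q] [Fintype Q] {f : Q → P} (h : Sd Y U G V)
    (hf : Monotone f) : Sd (f ⁻¹' Y) (f ⁻¹' U) (f ⁻¹' G) (f ⁻¹' V) :=
  ⟨h.up.preimage hf, h.up'.preimage hf, fun y hy => h.cov _ hy, h.dj.preimage f, h.dg.preimage f,
    h.dg'.preimage f⟩

theorem Sd.rg (h : Sd Y U G V) (hY : Rg Y) (hs : U ⊆ Y) (hG : IsLowerSet G) (hGY : G ⊆ Y)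
    (tv : ∀ x ∈ G, Ctr {y | y ∈ U ∧ x ≤ y}) : Rg U := by
  refine rg_of h.up (hY.mf.mono hs) fun x ⟨n, a, ha, l⟩ => ?_
  by_cases k : x ∈ Y
  · exact tv x ((h.cov x k).resolve_left n |>.resolve_right fun j =>
      Set.disjoint_left.1 h.dj ha (h.up' l j))
  · have c := hY.ctr ⟨a, hs ha, l⟩
    convert c using 3 with y
    refine ⟨fun j => ⟨hs j.1, j.2⟩, fun j => ⟨?_, j.2⟩⟩
    refine (c.conn a ⟨hs ha, l⟩ y j).ind ha fun p hp q hq m => ⟨h.up m, fun i => ?_⟩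
    exact (h.cov p hp.1).elim id fun o => o.elim (fun o => absurd (hGY (hG hp.2 o)) k)
      fun o => absurd (h.up' m o) (Set.disjoint_left.1 h.dj i)

theorem inn_side (h : Sd Y U G V) (hU : Rg U) (hG : IsLowerSet G) (hX : IsUpperSet X) (hs : X ⊆ Y)
    (hw : S1 X w) (hD : Inn G X w D) (hc : c ∈ D) (ht : c.top ∈ U) :
    TD U (pc w D) ∧ On U G (pc w D) := by
  have s : CA (X ∩ U) w ⊆ CA X w \ Cv G w := fun d k =>
    ⟨⟨k.1.1, k.2⟩, fun n => Set.disjoint_left.1 h.dg k.1.2 (n.1 _ d.top_mem)⟩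
  have cl : ∀ a ∈ CA (X ∩ U) w, ∀ b ∈ CA X w \ Cv G w, Cm a b → b ∈ CA (X ∩ U) w :=
    fun a ha b hb m => ⟨⟨hb.1.1, m.elim (fun m => h.up (Ch.top_mono m) ha.1.2) fun m =>
      (h.cov _ (hs hb.1.1)).elim id fun o => o.elim
        (fun o => absurd ((mem_cv hG).2 ⟨o, hb.1.2⟩) hb.2) fun o =>
          absurd (h.up' (Ch.top_mono m) o) (Set.disjoint_left.1 h.dj ha.1.2)⟩, hb.1.2⟩
  have m : c ∈ CA (X ∩ U) w := ⟨⟨(hD.cmp.sub hc).1.1, ht⟩, (hD.cmp.sub hc).1.2⟩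
  have k : IsCmp (CA (X ∩ U) w) D := ⟨c, m, (hD.cmp.eq hc).trans (Set.ext fun d =>
    ⟨fun j => have := Rch.in_clopen cl m j.2; ⟨this.mem m, this⟩, fun j => ⟨s j.1, j.2.mono s⟩⟩)⟩
  obtain ⟨c', hc', e, he, l⟩ := hD.ne
  refine ⟨td_pc hU hw k (fun c a e b j u _ i => hX i (hD.int c a e b j)) hD.eu
    ⟨c', hc', e, l, he.2, fun n => Set.disjoint_left.1 h.dg n (he.1 _ e.top_mem)⟩,
    fun x _ y hy l => (pc_cases w D x y).resolve_right fun ⟨_, j, d, a, b, i⟩ => ?_⟩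
  have := hD.int d a _ (pr_le l b i) (by simpa using j)
  rw [Ch.top_pr] at this
  exact Set.disjoint_left.1 h.dj (k.sub a).1.2 (h.up' (Ch.le_top i)
    (((h.cov y (hs this)).resolve_left hy.1.1).resolve_left hy.2))

theorem icP_mem {R : Type} [PartialOrder R] {car : P → R} (hY : Amb Y) (h : Mem car Y U G V) :
    IcP G Y := fun t f tw X w D hX hs hw hD => by
  have s : Sd Y U G V := ⟨h.two.up, h.two.up', h.two.cov, h.two.dj,
    Set.disjoint_left.2 fun _ a b => h.two.bd.not b a, h.two.dg⟩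
  have r : Rg U := s.rg hY.toRg h.two.sub h.two.bd.low h.sub fun x hx => by
    simpa using h.two.tv Set.univ isLowerSet_univ x ⟨hx, h.sub hx⟩ trivial
  have r' : Rg V := s.symm.rg hY.toRg h.two.sub' h.two.bd.low h.sub fun x hx => by
    simpa using h.two.tv' Set.univ isLowerSet_univ x ⟨hx, h.sub hx⟩ trivial
  have m := tw_mono tw
  have g := h.two.bd.low.preimage m
  obtain ⟨c, hc⟩ := hD.cmp.ne
  have k := hD.cmp.sub hc
  refine Ines.bds ?_ (Set.preimage_mono h.sub)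
  rcases h.two.cov _ (hs k.1.1) with j | j | j
  · obtain ⟨a, b⟩ := inn_side (s.pre m) (tw_rg tw r) g hX hs hw hD hc j
    exact h.inc t f tw _ a b
  · exact absurd ((mem_cv g).2 ⟨j, k.1.2⟩) k.2
  · obtain ⟨a, b⟩ := inn_side (s.symm.pre m) (tw_rg tw r') g hX hs hw hD hc j
    exact h.inc' t f tw _ a b

theorem ic_disc (hC : CircStmt) (hX : IsUpperSet X) (hH : IsLowerSet H) (hm : MfIn H X)
    (hc : Ctr (H ∩ X)) (hn : ∃ x ∈ H, ∃ y ∈ H ∩ X, x ∉ X ∧ x ≤ y) : IC H X :=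
  fun t f tw w hw hf hk => by
    have m := tw_mono tw
    have s : S1 (f ⁻¹' X) w := hw.elim (·.toS1) (·.toS1)
    rw [Set.preimage_inter, ← tw_cl tw, ← s.cv_empty Set.inter_subset_right]
    rw [Set.preimage_inter, ← tw_om tw] at hf
    by_contra n
    obtain ⟨x, hx, y, hy, a, l⟩ := hn
    obtain ⟨x', rfl⟩ := (Desc.ce tw).surj x
    obtain ⟨y', l', rfl⟩ := Sup43.desc_up tw l
    refine hC _ _ _ w _ (hX.preimage m) (hH.preimage m) (tw_mfIn tw hH hm) (tw_ctr (X := H ∩ X) tw hc)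
      ⟨x', hx, y', hy, a, l'⟩ s (Set.nonempty_iff_ne_empty.2 n) (Alg36.clo_self _) (fun c k => ?_) hk
    by_contra j
    have lo := (hH.preimage m).inter (om_low (hX.preimage m))
    have := k.1 _ c.top_mem
    exact k.2.ne' (hf _ (lo c.bot_le_top ⟨this.1, j, this.2⟩) _ ⟨this.1, j, this.2⟩ c.bot_le_top)

theorem ic_of (hI : InnStmt) (hC : CapStmt) (hX : Sub Y X) (hH : IsLowerSet H) (hm : MfIn H Y)
    (hd : Disjoint (H ∩ Y) (Om X)) (h : IcP H Y) : IC H X := fun t f tw w hw hf hk => by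
  have m := tw_mono tw
  have s : S1 (f ⁻¹' X) w := hw.elim (·.toS1) (·.toS1)
  have r := tw_rg tw hX.toRg
  have lo := hH.preimage m
  have mf : MfIn (f ⁻¹' H) (f ⁻¹' X) := (tw_mfIn tw hH hm).mono fun _ k => hX.sub k.2
  rw [Set.preimage_inter, ← tw_cl tw]
  rw [Set.preimage_inter, ← tw_om tw] at hf
  by_contra n
  obtain ⟨D, hD⟩ := hI _ _ _ w r lo mf hw hf n
  obtain ⟨Z, z1, z2, z3, z4⟩ := h t f tw _ w D r.up (Set.preimage_mono hX.sub) s hD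
  obtain ⟨c, hc, e, he, l⟩ := hD.ne
  have p1 := pc_one he.2 hc (l e.bot_mem) (l e.top_mem)
  have dn : ∀ a ∈ Z, ∀ b ∈ f ⁻¹' X, a ≤ b → a ∈ f ⁻¹' X := fun a ha b hb k => by_contra fun j =>
    Set.disjoint_left.1 hd ⟨z1 ha, z2 ha⟩ ⟨j, f b, hb, m k⟩
  have et := hD.int c hc e l he.2
  obtain ⟨z, za, zb⟩ : ∃ z ∈ Z, z ∈ f ⁻¹' X := by
    by_cases k : e.top ∈ Z
    · exact ⟨_, k, et⟩
    · have : e.bot ∈ Z := by_contra fun j => by
        have := (z4.iff (he.1 _ e.bot_mem) (he.1 _ e.top_mem) e.bot_le_top).2 (iff_of_false j k)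
        omega
      exact ⟨_, this, dn _ this _ et e.bot_le_top⟩
  refine hC _ _ _ w (pc w D) r.up lo mf s ⟨Z, z1, fun y hy => (z3.conn z za y hy).ind zb
    fun a ha b _ k => ⟨r.up k, fun j => dn a ha b j k⟩, z3, z4⟩ (fun k => ?_) (fun x _ y _ k => ?_) hk
  · have := k _ (he.1 _ e.bot_mem) _ (he.1 _ e.top_mem) e.bot_le_top
    omega
  · refine (pc_cases w D x y).imp id fun ⟨a, b, d, d1, _, d2⟩ => ⟨a, ?_⟩
    have := s.le1 x y ⟨_, (hD.cmp.sub d1).1.1, Ch.le_top d2⟩ k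
    omega

/-- **IC** -/
theorem icStmt (hI : InnStmt) (hC : CapStmt) (hO : CircStmt) : IcStmt := fun _ _ _ =>
  ⟨fun _ _ _ _ _ _ _ => icP_mem, fun _ _ => ic_disc hO, fun _ _ _ => ic_of hI hC⟩

end Crest.Agent.X212.Hd34.Pc
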